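import Crest.Agent.R17.A.All

/-! Row 12, block SW (owner helper8): continuation of `∑ Ψ(n) al(n)^l N(n)^(-s)` to `Re s > 5/8`
for periodic `Ψ` with zero period sum, with polynomial growth. -/

set_option autoImplicit false

namespace Crest.Agent.R12.SW

open Crest.Agent.R17 Complex

/-- the strip -/
def U : Set ℂ := {s | 5 / 8 < s.re ∧ s.re < 4}

theorem isOpen_U : IsOpen U :=
  (isOpen_lt continuous_const continuous_re).inter (isOpen_lt continuous_re continuous_const)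

/-- the archimedean factor -/
noncomputable def Fs (l : ℤ) (s : ℂ) (n : O) : ℂ := al n ^ l * (nm n : ℂ) ^ (-s)

theorem pow_sub_le {u v : ℂ} (hu : ‖u‖ = 1) (hv : ‖v‖ = 1) (n : ℕ) :
    ‖u ^ n - v ^ n‖ ≤ n * ‖u - v‖ := by
  induction n with
  | zero => simp
  | succ n ih =>
    have e : u ^ (n + 1) - v ^ (n + 1) = u * (u ^ n - v ^ n) + (u - v) * v ^ n := by ring
    rw [e]
    refine (norm_add_le _ _).trans ?_
    rw [norm_mul, norm_mul, norm_pow, hu, hv, one_pow]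
    push_cast
    linarith

theorem zpow_sub_le {u v : ℂ} (hu : ‖u‖ = 1) (hv : ‖v‖ = 1) (l : ℤ) :
    ‖u ^ l - v ^ l‖ ≤ |(l : ℝ)| * ‖u - v‖ := by
  obtain ⟨n, rfl | rfl⟩ := l.eq_nat_or_neg
  · simpa using pow_sub_le hu hv n
  · have hu0 : u ≠ 0 := norm_pos_iff.1 (by rw [hu]; exact one_pos)
    have hv0 : v ≠ 0 := norm_pos_iff.1 (by rw [hv]; exact one_pos)
    have h := pow_sub_le (u := u⁻¹) (v := v⁻¹) (by simp [hu]) (by simp [hv]) n
    have e : u⁻¹ - v⁻¹ = -(u - v) * (u⁻¹ * v⁻¹) := by field_simp; ring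
    rw [e, norm_mul, norm_neg, norm_mul, norm_inv, norm_inv, hu, hv] at h
    simpa using h

theorem dir_sub_le {z w : ℂ} (hz : z ≠ 0) (hw : w ≠ 0) :
    ‖w / (‖w‖ : ℂ) - z / (‖z‖ : ℂ)‖ ≤ 2 * ‖w - z‖ / ‖z‖ := by
  have hz' : 0 < ‖z‖ := norm_pos_iff.2 hz
  have hw' : 0 < ‖w‖ := norm_pos_iff.2 hw
  have hzc : (‖z‖ : ℂ) ≠ 0 := ofReal_ne_zero.2 hz'.ne'
  have hwc : (‖w‖ : ℂ) ≠ 0 := ofReal_ne_zero.2 hw'.ne'
  have e : w / (‖w‖ : ℂ) - z / (‖z‖ : ℂ) =
      (w - z) / (‖z‖ : ℂ) + w / (‖w‖ : ℂ) * ((‖z‖ - ‖w‖ : ℝ) / (‖z‖ : ℂ)) := by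
    push_cast
    field_simp
    ring
  rw [e]
  refine (norm_add_le _ _).trans ?_
  have h := abs_norm_sub_norm_le z w
  rw [norm_sub_rev] at h
  simp only [norm_mul, norm_div, norm_real, Real.norm_eq_abs, abs_norm]
  rw [div_self hw'.ne', one_mul, ← add_div, two_mul]
  gcongr

theorem cpow_sub_le {x x' y : ℝ} (hy : 0 < y) (hx : y ≤ x) (hx' : y ≤ x') {s : ℂ} (hs : 0 < s.re) :
    ‖(x : ℂ) ^ (-s) - (x' : ℂ) ^ (-s)‖ ≤ ‖s‖ * y ^ (-s.re - 1) * |x - x'| := by
  have hs0 : -s ≠ 0 := by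
    intro h
    rw [neg_eq_zero] at h
    simp [h] at hs
  exact (convex_Ici y).norm_image_sub_le_of_norm_hasDerivWithin_le
    (f := fun y : ℝ => (y : ℂ) ^ (-s)) (f' := fun x : ℝ => -s * (x : ℂ) ^ (-s - 1))
    (C := ‖s‖ * y ^ (-s.re - 1))
    (fun x hx => (hasDerivAt_ofReal_cpow_const (hy.trans_le hx).ne' hs0).hasDerivWithinAt)
    (fun x hx => by
      rw [norm_mul, norm_neg, norm_cpow_eq_rpow_re_of_pos (hy.trans_le hx)]
      simp only [sub_re, neg_re, one_re]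
      exact mul_le_mul_of_nonneg_left (Real.rpow_le_rpow_of_nonpos hy hx (by linarith))
        (norm_nonneg _)) hx' hx

theorem norm_al_zpow {n : O} (hn : n ≠ 0) (l : ℤ) : ‖al n ^ l‖ = 1 := by
  rw [norm_zpow, norm_al hn, one_zpow]

theorem norm_Fs (l : ℤ) {s : ℂ} (hs : 0 < s.re) (n : O) : ‖Fs l s n‖ = nm n ^ (-s.re) := by
  rw [Fs, norm_mul, norm_cpow_eq_rpow_re_of_nonneg (nm_nonneg n) (by rw [neg_re]; linarith), neg_re]
  by_cases hn : n = 0
  · rw [nm_eq_zero.2 hn, Real.zero_rpow (by linarith), mul_zero]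
  · rw [norm_al_zpow hn, one_mul]

theorem norm_Fs_le (l : ℤ) {s : ℂ} (hs : 0 < s.re) (n : O) : ‖Fs l s n‖ ≤ 1 := by
  rw [norm_Fs l hs]
  by_cases hn : n = 0
  · rw [nm_eq_zero.2 hn, Real.zero_rpow (by linarith)]
    exact zero_le_one
  · exact Real.rpow_le_one_of_one_le_of_nonpos (one_le_nm hn) (by linarith)

theorem Fs_sub_le (l : ℤ) {s : ℂ} (hs : 5 / 8 ≤ s.re) {a z : O} {R : ℝ} (ha : ‖sg a‖ ≤ R)
    (hR : 1 ≤ R) (hz : 2 * R ≤ ‖sg z‖) :
    ‖Fs l s (a + z) - Fs l s z‖ ≤ (|(l : ℝ)| + 6 * ‖s‖) * R * (nm z / 4) ^ (-(9 / 8) : ℝ) := by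
  set r := ‖sg z‖ / 2 with hr
  have hr1 : 1 ≤ r := by linarith
  have hr0 : 0 < r := by linarith
  have hz2 : ‖sg z‖ = 2 * r := by rw [hr]; ring
  have h1 : r ≤ ‖sg (a + z)‖ := by
    have := norm_sub_norm_le (sg z) (-sg a)
    rw [norm_neg, sub_neg_eq_add, add_comm, ← map_add] at this
    linarith
  have h2 : ‖sg (a + z)‖ ≤ ‖sg a‖ + 2 * r := by
    rw [map_add, ← hz2]
    exact norm_add_le _ _
  have h3 : 2 * r - ‖sg a‖ ≤ ‖sg (a + z)‖ := by
    have := norm_sub_norm_le (sg z) (-sg a)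
    rw [norm_neg, sub_neg_eq_add, add_comm, ← map_add] at this
    linarith
  have hz0 : sg z ≠ 0 := norm_pos_iff.1 (by linarith)
  have hw0 : sg (a + z) ≠ 0 := norm_pos_iff.1 (by linarith)
  have e1 : nm z / 4 = r ^ 2 := by rw [nm_eq, hz2]; ring
  have hy : 1 ≤ r ^ 2 := one_le_pow₀ hr1
  have k1 : r ^ 2 ≤ nm (a + z) := by rw [nm_eq]; gcongr
  have k2 : r ^ 2 ≤ nm z := by rw [← e1]; linarith [nm_nonneg z]
  have k3 : |nm (a + z) - nm z| ≤ 6 * R * r := by
    rw [nm_eq, nm_eq, hz2, abs_le]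
    have := norm_nonneg (sg a)
    constructor <;> nlinarith
  have p1 : (r ^ 2) ^ (-(9 / 8) : ℝ) * r = (r ^ 2) ^ (-(5 / 8) : ℝ) := by
    have : r = (r ^ 2) ^ (1 / 2 : ℝ) := by rw [← Real.sqrt_eq_rpow, Real.sqrt_sq hr0.le]
    nth_rewrite 2 [this]
    rw [← Real.rpow_add (by positivity)]
    norm_num
  have p2 : (r ^ 2) ^ (-(13 / 8) : ℝ) * r = (r ^ 2) ^ (-(9 / 8) : ℝ) := by
    have : r = (r ^ 2) ^ (1 / 2 : ℝ) := by rw [← Real.sqrt_eq_rpow, Real.sqrt_sq hr0.le]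
    nth_rewrite 2 [this]
    rw [← Real.rpow_add (by positivity)]
    norm_num
  have t1 : ‖(al (a + z) ^ l - al z ^ l) * (nm (a + z) : ℂ) ^ (-s)‖ ≤
      |(l : ℝ)| * R * (r ^ 2) ^ (-(9 / 8) : ℝ) := by
    have u1 := zpow_sub_le (norm_al (sg_eq_zero.not.1 hw0)) (norm_al (sg_eq_zero.not.1 hz0)) l
    have u2 : ‖al (a + z) - al z‖ ≤ R / r := by
      refine (dir_sub_le hz0 hw0).trans ?_
      rw [map_add, add_sub_cancel_right, hz2, mul_div_mul_left _ _ two_ne_zero]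
      gcongr
    have u3 : ‖(nm (a + z) : ℂ) ^ (-s)‖ ≤ (r ^ 2) ^ (-(5 / 8) : ℝ) := by
      rw [norm_cpow_eq_rpow_re_of_pos (by linarith), neg_re]
      exact (Real.rpow_le_rpow_of_nonpos (by positivity) k1 (by linarith)).trans
        (Real.rpow_le_rpow_of_exponent_le hy (by linarith))
    rw [norm_mul]
    calc _ ≤ |(l : ℝ)| * (R / r) * (r ^ 2) ^ (-(5 / 8) : ℝ) := by
          refine mul_le_mul (u1.trans ?_) u3 (norm_nonneg _) (by positivity)
          gcongr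
      _ = _ := by rw [← p1]; field_simp
  have t2 : ‖al z ^ l * ((nm (a + z) : ℂ) ^ (-s) - (nm z : ℂ) ^ (-s))‖ ≤
      6 * ‖s‖ * R * (r ^ 2) ^ (-(9 / 8) : ℝ) := by
    rw [norm_mul, norm_al_zpow (sg_eq_zero.not.1 hz0), one_mul]
    refine (cpow_sub_le (by positivity) k1 k2 (by linarith)).trans ?_
    calc _ ≤ ‖s‖ * (r ^ 2) ^ (-(13 / 8) : ℝ) * (6 * R * r) := by
          gcongr
          linarith
      _ = _ := by rw [← p2]; ring
  have e : Fs l s (a + z) - Fs l s z = (al (a + z) ^ l - al z ^ l) * (nm (a + z) : ℂ) ^ (-s) +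
      al z ^ l * ((nm (a + z) : ℂ) ^ (-s) - (nm z : ℂ) ^ (-s)) := by
    unfold Fs
    ring
  rw [e, e1]
  refine (norm_add_le _ _).trans ?_
  linarith

open Classical in
/-- the majorant -/
noncomputable def mj (m : O) : ℝ := (nm m / 4) ^ (-(9 / 8) : ℝ) + if m ∈ ball 4 then 2 else 0

theorem mj_nonneg (m : O) : 0 ≤ mj m := by
  have := nm_nonneg m
  unfold mj
  split_ifs <;> positivity

theorem summable_mj : Summable mj := by
  classical
  refine Summable.add ?_ (summable_of_ne_finset_zero (s := ball 4) fun m hm => if_neg hm)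
  refine ((summable_nm_rpow (σ := 9 / 8) (by norm_num)).div_const
    ((4 : ℝ) ^ (-(9 / 8) : ℝ))).congr fun m => ?_
  rw [Real.div_rpow (nm_nonneg m) (by norm_num)]

theorem term_le (l : ℤ) {s : ℂ} (hs : s ∈ U) {a : O} {M : ℕ} (hM : M ≠ 0) (ha : ‖sg a‖ ≤ M)
    (m : O) : ‖(Fs l s (a + M * m) - Fs l s (M * m)) / (s + 1)‖ ≤ (|(l : ℝ)| + 6) * M * mj m := by
  have hM1 : (1 : ℝ) ≤ M := by exact_mod_cast Nat.one_le_iff_ne_zero.2 hM
  have h1 : 1 ≤ ‖s + 1‖ := le_trans (by simp; linarith [hs.1]) (re_le_norm (s + 1))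
  have h2 : ‖s‖ ≤ ‖s + 1‖ := by
    rw [← sq_le_sq₀ (norm_nonneg _) (norm_nonneg _), Complex.sq_norm, Complex.sq_norm,
      normSq_apply, normSq_apply]
    simp only [add_re, one_re, add_im, one_im, add_zero]
    nlinarith [hs.1]
  have hl := abs_nonneg (l : ℝ)
  have hp : 0 ≤ (nm m / 4) ^ (-(9 / 8) : ℝ) :=
    Real.rpow_nonneg (div_nonneg (nm_nonneg m) (by norm_num)) _
  rw [norm_div, div_le_iff₀ (by linarith), mj]
  split_ifs with hm
  · have h3 := norm_sub_le (Fs l s (a + M * m)) (Fs l s (M * m))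
    have h4 := norm_Fs_le l (s := s) (by linarith [hs.1]) (a + M * m)
    have h5 := norm_Fs_le l (s := s) (by linarith [hs.1]) (M * m)
    have h6 : (1 : ℝ) * 1 * 2 * 1 ≤
        (|(l : ℝ)| + 6) * M * ((nm m / 4) ^ (-(9 / 8) : ℝ) + 2) * ‖s + 1‖ := by
      gcongr <;> linarith
    linarith
  · rw [mem_ball, not_le] at hm
    have h3 : 2 ≤ ‖sg m‖ := by
      rw [nm_eq] at hm
      nlinarith [norm_nonneg (sg m)]
    have h4 : 2 * (M : ℝ) ≤ ‖sg (M * m)‖ := by
      rw [map_mul, norm_mul, map_natCast, Complex.norm_natCast]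
      nlinarith
    have h5 : nm m ≤ nm (M * m) := by
      rw [nm_mul]
      exact le_mul_of_one_le_left (nm_nonneg m) (one_le_nm (by exact_mod_cast hM))
    refine (Fs_sub_le l hs.1.le ha hM1 h4).trans ?_
    calc _ ≤ ((|(l : ℝ)| + 6) * ‖s + 1‖) * M * (nm m / 4) ^ (-(9 / 8) : ℝ) := by
          refine mul_le_mul (mul_le_mul_of_nonneg_right (by nlinarith) (by positivity))
            (Real.rpow_le_rpow_of_nonpos (by linarith) (by linarith) (by norm_num))
            (Real.rpow_nonneg (by linarith) _) (by positivity)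
      _ = _ := by ring

theorem diff_Fs (l : ℤ) (n : O) : DifferentiableOn ℂ (fun s => Fs l s n) U := by
  by_cases hn : n = 0
  · refine (differentiableOn_const (c := (0 : ℂ))).congr fun s hs => norm_eq_zero.1 ?_
    rw [norm_Fs l (by linarith [hs.1]), nm_eq_zero.2 hn, Real.zero_rpow (by linarith [hs.1])]
  · exact ((differentiable_id.neg.const_cpow
      (Or.inl (ofReal_ne_zero.2 (nm_pos hn).ne'))).const_mul _).differentiableOn

theorem summable_Fs (l : ℤ) {s : ℂ} (hs : 1 < s.re) : Summable (Fs l s) :=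
  Summable.of_norm ((summable_nm_rpow hs).congr fun n => (norm_Fs l (by linarith) n).symm)

theorem exists_cont (l : ℤ) : ∃ C : ℝ, 1 ≤ C ∧ ∀ (Q : O) (Ψ : O → ℂ), Q ≠ 0 → Per Q Ψ →
    (∀ n, ‖Ψ n‖ ≤ 1) → rsum Q Ψ = 0 → ∃ L : ℂ → ℂ, DifferentiableOn ℂ L U ∧
      (∀ s ∈ U, ‖L s‖ ≤ C * nm Q ^ 3 * ‖s + 1‖) ∧
      ∀ s ∈ U, 1 < s.re → L s = ∑' n : O, Ψ n * Fs l s n := by
  have hS : 0 ≤ ∑' m, mj m := tsum_nonneg mj_nonneg
  have hl := abs_nonneg (l : ℝ)
  refine ⟨(|(l : ℝ)| + 6) * ∑' m, mj m + 1, le_add_of_nonneg_left (by positivity),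
    fun Q Ψ hQ hΨ h1 h0 => ?_⟩
  set M := nN Q with hM
  have hM0 : M ≠ 0 := mt nN_eq_zero.1 hQ
  have hMc : (M : O) ≠ 0 := by exact_mod_cast hM0
  have hMp : Per (M : O) Ψ := hΨ.mono (dvd_nN Q)
  have hM1 : rsum (M : O) Ψ = 0 := by
    rw [hM, ← mul_cj, rsum_lift hQ (fun h => hMc (by rw [hM, ← mul_cj, h, mul_zero])) hΨ, h0,
      mul_zero]
  have hne : ∀ s ∈ U, s + 1 ≠ 0 := fun s hs h => by
    have := congrArg re h
    simp at this
    linarith [hs.1]
  have ha : ∀ x ∈ Finset.range M, ∀ y ∈ Finset.range M, ‖sg ((x : O) + y * om)‖ ≤ M := by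
    intro x hx y hy
    have hx' : (x : ℝ) ≤ M := by exact_mod_cast (Finset.mem_range.1 hx).le
    have hy' : (y : ℝ) ≤ M := by exact_mod_cast (Finset.mem_range.1 hy).le
    have h := nm_coord x y
    simp only [Int.cast_natCast] at h
    rw [← sq_le_sq₀ (norm_nonneg _) (Nat.cast_nonneg _), ← nm_eq, h]
    have hx0 : (0 : ℝ) ≤ x := Nat.cast_nonneg _
    have hy0 : (0 : ℝ) ≤ y := Nat.cast_nonneg _
    rcases le_total (x : ℝ) y with h | h <;> nlinarith
  refine ⟨fun s => (s + 1) * ∑ x ∈ Finset.range M, ∑ y ∈ Finset.range M, Ψ (x + y * om) *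
    ∑' m : O, (Fs l s (x + y * om + M * m) - Fs l s (M * m)) / (s + 1), ?_, fun s hs => ?_,
    fun s hs hs1 => ?_⟩
  · refine (differentiableOn_id.add_const 1).mul (DifferentiableOn.fun_sum fun x hx =>
      DifferentiableOn.fun_sum fun y hy => DifferentiableOn.const_mul ?_ _)
    exact differentiableOn_tsum_of_summable_norm (summable_mj.mul_left _)
      (fun m => ((diff_Fs l _).sub (diff_Fs l _)).div (differentiableOn_id.add_const 1) hne)
      isOpen_U fun m s hs => term_le l hs hM0 (ha x hx y hy) m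
  · rw [norm_mul, mul_comm]
    refine mul_le_mul_of_nonneg_right ?_ (norm_nonneg _)
    have k : ∀ x ∈ Finset.range M, ∀ y ∈ Finset.range M, ‖Ψ (x + y * om) *
        ∑' m : O, (Fs l s (x + y * om + M * m) - Fs l s (M * m)) / (s + 1)‖ ≤
        (|(l : ℝ)| + 6) * M * ∑' m, mj m := fun x hx y hy => by
      rw [norm_mul]
      exact (mul_le_of_le_one_left (norm_nonneg _) (h1 _)).trans (tsum_of_norm_bounded
        (summable_mj.hasSum.mul_left _) fun m => term_le l hs hM0 (ha x hx y hy) m)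
    refine (norm_sum_le_of_le _ fun x hx => norm_sum_le_of_le _ (k x hx)).trans ?_
    simp only [Finset.sum_const, Finset.card_range, nsmul_eq_mul]
    have e : nm Q = M := rfl
    rw [e]
    nlinarith [pow_nonneg (Nat.cast_nonneg (α := ℝ) M) 3]
  · have hF := summable_Fs l hs1
    have hs' : Summable fun n => Ψ n * Fs l s n :=
      Summable.of_norm_bounded hF.norm fun n => by
        rw [norm_mul]
        exact mul_le_of_le_one_left (norm_nonneg _) (h1 n)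
    have hi : ∀ a : O, Summable fun m : O => Fs l s (a + M * m) := fun a =>
      hF.comp_injective fun m m' h => mul_left_cancel₀ hMc (add_left_cancel h)
    have hi0 : Summable fun m : O => Fs l s (M * m) := by simpa using hi 0
    rw [tsum_eq_rsum hMc hs', rsum_nat hM0]
    · have e : ∀ a : O, ∑' m : O, Ψ (a + M * m) * Fs l s (a + M * m) =
          (s + 1) * (Ψ a * ∑' m : O, (Fs l s (a + M * m) - Fs l s (M * m)) / (s + 1)) +
            Ψ a * ∑' m : O, Fs l s (M * m) := fun a => by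
        rw [tsum_div_const, (hi a).tsum_sub hi0, mul_left_comm, mul_div_cancel₀ _ (hne s hs),
          ← mul_add, sub_add_cancel, ← tsum_mul_left]
        exact tsum_congr fun m => by rw [hMp (a + M * m) a (by simp)]
      rw [rsum_nat hM0 hMp] at hM1
      simp only [e, Finset.sum_add_distrib, ← Finset.mul_sum, ← Finset.sum_mul, hM1, zero_mul,
        add_zero]
    · rintro a b ⟨c, hc⟩
      obtain rfl : a = b + M * c := by linear_combination hc
      beta_reduce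
      rw [← (Equiv.addLeft c).tsum_eq fun m : O => Ψ (b + M * m) * Fs l s (b + M * m)]
      exact tsum_congr fun m => by simp only [Equiv.coe_addLeft, mul_add, add_assoc]

end Crest.Agent.R12.SW
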