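import Crest.Agent.R17.A.All

/-! Row 12, block SW (owner helper8): the cubic character of a non-cube has zero period sum. -/

set_option autoImplicit false

namespace Crest.Agent.R12.SW

open Crest.Agent.R17

theorem crt {a b : O} (h : IsCoprime a b) (x y : O) : ∃ n, a ∣ n - x ∧ b ∣ n - y := by
  obtain ⟨u, v, huv⟩ := h
  exact ⟨x * v * b + y * u * a, ⟨(y - x) * u, by linear_combination x * huv⟩,
    ⟨(x - y) * v, by linear_combination y * huv⟩⟩

theorem om_zpow_ne {m : ℤ} (h : ¬ 3 ∣ m) : sg om ^ m ≠ 1 := fun e =>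
  h ((isPrimitiveRoot_sg_om.zpow_eq_one_iff_dvd m).1 e)

theorem exists_ne_prime {p k' : O} {v : ℕ} (hp : Prime p) (hp' : Prim p) (hk : ¬ p ∣ k')
    (hv : ¬ 3 ∣ v) : ∃ n, Prim n ∧ cb (p ^ v * k') n ≠ 0 ∧ cb (p ^ v * k') n ≠ 1 := by
  obtain ⟨u, hu⟩ := exists_cb_eq_om hp hp'.coprime_three
  have h9 : IsCoprime p 9 := by
    have := hp'.coprime_three.pow_right (n := 2)
    norm_num at this
    exact this
  obtain ⟨n, h1, h2⟩ := crt (h9.mul_right (hp.irreducible.coprime_iff_not_dvd.2 hk)) u 1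
  have h3 : (9 : O) ∣ n - 1 := (dvd_mul_right _ _).trans h2
  have hn : Prim n := (show (3 : O) ∣ 9 from ⟨3, by norm_num⟩).trans h3
  have e1 : cb k' n = 1 := by
    rw [cb_per (D := k') (k := 1) (by simp) h3 ((dvd_mul_left _ _).trans h2), cb_one_right]
  have e : cb (p ^ v * k') n = sg om ^ (v : ℤ) := by
    rw [cb_mul_left, e1, mul_one, cb_pow_left' _ hn.coprime_three, cb_recip hp' hn, cb_congr h1, hu,
      zpow_natCast]
  refine ⟨n, hn, ?_, ?_⟩ <;> rw [e]
  · exact zpow_ne_zero _ cub_om_ne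
  · exact om_zpow_ne (by omega)

theorem exists_ne_unit {j i : ℕ} (h : ¬ (3 ∣ j ∧ 3 ∣ i)) :
    ∃ n, Prim n ∧ cb (zt ^ j * lam ^ i) n ≠ 0 ∧ cb (zt ^ j * lam ^ i) n ≠ 1 := by
  have e : ∀ a b : ℤ, cb (zt ^ j * lam ^ i) (1 + 3 * ((a : O) + b * om)) =
      sg om ^ ((a + b) * j + -b * i) := fun a b => by
    have h3 := (cub_prim a b).coprime_three
    rw [cb_mul_left, cb_pow_left' _ h3, cb_pow_left' _ h3, cub_zt, cb_lam,
      zpow_add₀ cub_om_ne ((a + b) * j), zpow_mul, zpow_mul, zpow_natCast, zpow_natCast]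
  by_cases hj : 3 ∣ j
  · refine ⟨_, cub_prim (-1) 1, ?_, ?_⟩ <;> rw [e]
    · exact zpow_ne_zero _ cub_om_ne
    · exact om_zpow_ne (by omega)
  · refine ⟨_, cub_prim 1 0, ?_, ?_⟩ <;> rw [e]
    · exact zpow_ne_zero _ cub_om_ne
    · exact om_zpow_ne (by omega)

theorem exists_cb_ne {k : O} (hk : k ≠ 0) (hc : ¬ ∃ m, k = m ^ 3) :
    ∃ n, Prim n ∧ cb k n ≠ 0 ∧ cb k n ≠ 1 := by
  obtain ⟨ζ, i, k₀, hζ, hk₀, rfl⟩ := exists_decomp hk
  obtain ⟨c, b, hc', hb, hf, rfl⟩ := hk₀.exists_powFree (k := 3) (by norm_num)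
  by_cases h1 : c = 1
  · subst h1
    obtain ⟨j, -, rfl⟩ := isUnit_iff.1 hζ
    obtain ⟨n₁, hn₁, h0, h1⟩ := exists_ne_unit (j := j) (i := i) (by
      rintro ⟨⟨j', rfl⟩, ⟨i', rfl⟩⟩
      exact hc ⟨zt ^ j' * lam ^ i' * b, by ring⟩)
    have h9 : IsCoprime b 9 := by
      have := hb.coprime_three.pow_right (n := 2)
      norm_num at this
      exact this
    obtain ⟨n, h2, h3⟩ := crt h9 1 n₁
    have hn : Prim n := hn₁.congr ((show (3 : O) ∣ 9 from ⟨3, by norm_num⟩).trans (twb_symm h3))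
    have hbn : IsCoprime b n := by
      obtain ⟨w, hw⟩ := h2
      exact ⟨-w, 1, by linear_combination hw⟩
    have e : cb (zt ^ j * lam ^ i * (1 * b ^ 3)) n = cb (zt ^ j * lam ^ i) n₁ := by
      rw [cb_mul_left, one_mul, cb_pow_left _ _ (by norm_num), cub_cube hn hbn, mul_one,
        cb_unit_lam_congr hζ i h3]
    exact ⟨n, hn, e ▸ h0, e ▸ h1⟩
  · obtain ⟨p, hp, hp', hpc⟩ := hc'.exists_prime_dvd h1
    obtain ⟨j, c', hc₁, rfl⟩ := WfDvdMonoid.max_power_factor hc'.ne_zero hp.irreducible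
    obtain ⟨e, b', hb₁, rfl⟩ := WfDvdMonoid.max_power_factor hb.ne_zero hp.irreducible
    have hj0 : j ≠ 0 := by
      rintro rfl
      exact hc₁ (by simpa using hpc)
    have hj3 : j < 3 := by
      by_contra h
      exact hf p hp ((pow_dvd_pow p (not_lt.1 h)).mul_right _)
    have e1 : ζ * lam ^ i * (p ^ j * c' * (p ^ e * b') ^ 3) =
        p ^ (j + 3 * e) * (ζ * lam ^ i * c' * b' ^ 3) := by ring
    rw [e1]
    refine exists_ne_prime hp hp' (fun h => ?_) (by omega)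
    rcases hp.dvd_or_dvd h with h | h
    · rcases hp.dvd_or_dvd h with h | h
      · rcases hp.dvd_or_dvd h with h | h
        · exact hp.not_isUnit (isUnit_of_dvd_unit h hζ)
        · exact hp'.not_lam_dvd
            (hp.irreducible.dvd_symm prime_lam.irreducible (hp.dvd_of_dvd_pow h))
      · exact hc₁ h
    · exact hb₁ (hp.dvd_of_dvd_pow h)

open Classical in
/-- the periodic part -/
noncomputable def Ps (k : O) (j : ℕ) (n : O) : ℂ := if Prim n then cb k n ^ j else 0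

theorem norm_Ps_le (k : O) (j : ℕ) (n : O) : ‖Ps k j n‖ ≤ 1 := by
  unfold Ps
  split_ifs
  · rw [norm_pow]
    exact pow_le_one₀ (norm_nonneg _) (norm_cb_le k n)
  · simp

theorem per_Ps (k : O) (j : ℕ) : Per (9 * k) (Ps k j) := fun a b hab => by
  have h9 : (9 : O) ∣ a - b := (dvd_mul_right _ _).trans hab
  have h3 : (3 : O) ∣ a - b := (show (3 : O) ∣ 9 from ⟨3, by norm_num⟩).trans h9
  have e : Prim a ↔ Prim b := ⟨fun h => h.congr h3, fun h => h.congr (twb_symm h3)⟩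
  rw [Ps, Ps, propext e, cb_per (D := k) (k := 1) (by simp) h9 ((dvd_mul_left _ _).trans hab)]

theorem rsum_Ps {k : O} (hk : k ≠ 0) (hc : ¬ ∃ m, k = m ^ 3) {j : ℕ} (hj : j = 1 ∨ j = 2) :
    rsum (9 * k) (Ps k j) = 0 := by
  obtain ⟨n, hn, h0, h1⟩ := exists_cb_ne hk hc
  have hkn := (cb_ne_zero.1 h0).2
  have h9 : IsCoprime n 9 := by
    have := hn.coprime_three.pow_right (n := 2)
    norm_num at this
    exact this
  have h := rsum_mul_arg (mul_ne_zero (by norm_num) hk) (h9.mul_right hkn.symm) (per_Ps k j)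
  have e : (fun y => Ps k j (n * y)) = fun y => cb k n ^ j * Ps k j y := funext fun y => by
    have e : Prim (n * y) ↔ Prim y := ⟨hn.of_mul, hn.mul⟩
    rw [Ps, Ps, propext e, cb_mul_right, mul_pow, mul_ite, mul_zero]
  rw [e, rsum_mul_left] at h
  have h2 : cb k n ^ j ≠ 1 := by
    rcases hj with rfl | rfl
    · rwa [pow_one]
    · intro h2
      have h3 := cub_cube hn hkn
      rw [pow_succ, h2, one_mul] at h3
      exact h1 h3
  have h3 : (cb k n ^ j - 1) * rsum (9 * k) (Ps k j) = 0 := by linear_combination h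
  exact (mul_eq_zero.1 h3).resolve_left (sub_ne_zero.2 h2)

end Crest.Agent.R12.SW
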