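import Crest.Agent.R12.SW.Perron
import Crest.Agent.R12.SW.Char

/-! Row 12, block SW (owner helper8): Siegel-Walfisz for `cb k · al ^ l`, `k` not a cube. -/

set_option autoImplicit false

namespace Crest.Agent.R12.SW

open Crest.Agent.R17 Crest.Agent.R17.C Complex

open Classical in
/-- the primary primes of norm at most `x` -/
noncomputable def PS (x : ℝ) : Finset O := (ball x).filter fun p => Prime p ∧ Prim p

theorem mem_PS {x : ℝ} {p : O} : p ∈ PS x ↔ nm p ≤ x ∧ Prime p ∧ Prim p := by simp [PS]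

theorem Rz_sum (f : O → ℂ) {x Y : ℝ} (hx : 0 < x) (h : x ≤ Y) :
    Rz f x = ∑ p ∈ PS Y, f p * ((max (Real.log (x / nm p)) 0 : ℝ) : ℂ) := by
  classical
  rw [Rz, tsum_eq_sum (s := (ball Y).subtype fun p => Prime p ∧ Prim p),
    Finset.sum_subtype_eq_sum_filter
      (f := fun p : O => f p * ((max (Real.log (x / nm p)) 0 : ℝ) : ℂ)), PS]
  intro p hp
  rw [Finset.mem_subtype, mem_ball, not_le] at hp
  have hp0 := nm_pos p.2.1.ne_zero
  rw [max_eq_right (Real.log_nonpos (by positivity) ((div_le_one hp0).2 (by linarith))),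
    ofReal_zero, mul_zero]

theorem card_PS {x Y : ℝ} (hx : 0 ≤ x) (h : x ≤ Y) {A : Finset O}
    (hA : ∀ p ∈ A, p ∈ PS Y ∧ x < nm p) : (A.card : ℝ) ≤ 2 * (Y - x + 1) := by
  classical
  have k := Finset.card_le_mul_card_image_of_maps_to (f := nN) (s := A)
    (t := Finset.Ioc ⌊x⌋₊ ⌊Y⌋₊) (fun p hp => Finset.mem_Ioc.2
      ⟨(Nat.floor_lt hx).2 (hA p hp).2, Nat.le_floor (mem_PS.1 (hA p hp).1).1⟩) 2 fun m _ => by
      rcases (A.filter fun p => nN p = m).eq_empty_or_nonempty with h | ⟨p, hp⟩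
      · simp [h]
      refine (Finset.card_le_card (t := {p, cj p}) fun r hr => ?_).trans Finset.card_le_two
      obtain ⟨hp1, hp2⟩ := Finset.mem_filter.1 hp
      obtain ⟨hr1, hr2⟩ := Finset.mem_filter.1 hr
      obtain ⟨-, a1, a2⟩ := mem_PS.1 (hA p hp1).1
      obtain ⟨-, b1, b2⟩ := mem_PS.1 (hA r hr1).1
      have hd : r ∣ p * cj p := by
        rw [mul_cj, hp2, ← hr2]
        exact dvd_nN r
      rcases b1.dvd_or_dvd hd with h | h
      · simp [b2.eq_of_associated a2 (b1.associated_of_dvd a1 h)]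
      · simp [b2.eq_of_associated a2.cj (b1.associated_of_dvd (prime_cj a1) h)]
  rw [Nat.card_Ioc] at k
  have k2 : (A.card : ℝ) ≤ 2 * ((⌊Y⌋₊ - ⌊x⌋₊ : ℕ) : ℝ) := by exact_mod_cast k
  rw [Nat.cast_sub (Nat.floor_mono h)] at k2
  linarith [Nat.floor_le (hx.trans h), Nat.lt_floor_add_one x]

theorem desmooth {f : O → ℂ} (hf : ∀ n, ‖f n‖ ≤ 1) {x h : ℝ} (hx : 0 < x) (h0 : 0 < h)
    (h1 : h ≤ 1) : h * ‖∑ p ∈ PS x, f p‖ ≤
      ‖Rz f (x * Real.exp h)‖ + ‖Rz f x‖ + h * (2 * (2 * x * h + 1)) := by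
  classical
  have e1 : 1 ≤ Real.exp h := Real.one_le_exp h0.le
  have e2 : Real.exp h ≤ 1 + 2 * h := by
    have := abs_le.1 (Real.abs_exp_sub_one_le (x := h) (by rwa [abs_of_pos h0]))
    rw [abs_of_pos h0] at this
    linarith [this.2]
  set Y := x * Real.exp h with hY
  have hxY : x ≤ Y := le_mul_of_one_le_right hx.le e1
  have hl : ∀ p ∈ PS Y, Real.log (Y / nm p) = Real.log (x / nm p) + h := fun p hp => by
    have hp0 := nm_pos (mem_PS.1 hp).2.1.ne_zero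
    rw [hY, mul_div_right_comm, Real.log_mul (by positivity) (by positivity), Real.log_exp]
  have e3 : PS x = (PS Y).filter fun p => nm p ≤ x := by
    ext p
    simp only [Finset.mem_filter, mem_PS]
    exact ⟨fun a => ⟨⟨a.1.trans hxY, a.2⟩, a.1⟩, fun a => ⟨a.2, a.1.2⟩⟩
  have e4 : (h : ℂ) * ∑ p ∈ PS x, f p = Rz f Y - Rz f x -
      ∑ p ∈ (PS Y).filter fun p => ¬ nm p ≤ x, f p * ((Real.log (Y / nm p) : ℝ) : ℂ) := by
    rw [Rz_sum f (by linarith) le_rfl, Rz_sum f hx hxY, e3, Finset.sum_filter, Finset.sum_filter,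
      Finset.mul_sum, ← Finset.sum_sub_distrib, ← Finset.sum_sub_distrib]
    refine Finset.sum_congr rfl fun p hp => ?_
    have hp0 := nm_pos (mem_PS.1 hp).2.1.ne_zero
    rw [max_eq_left (Real.log_nonneg ((one_le_div hp0).2 (mem_PS.1 hp).1))]
    by_cases hc : nm p ≤ x
    · rw [if_pos hc, if_neg (not_not.2 hc), max_eq_left (Real.log_nonneg ((one_le_div hp0).2 hc)),
        hl p hp]
      push_cast
      ring
    · rw [if_neg hc, if_pos hc, max_eq_right (Real.log_nonpos (by positivity)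
        ((div_le_one hp0).2 (by linarith [not_le.1 hc])))]
      simp
  have e5 : ‖∑ p ∈ (PS Y).filter fun p => ¬ nm p ≤ x, f p * ((Real.log (Y / nm p) : ℝ) : ℂ)‖ ≤
      h * (2 * (2 * x * h + 1)) := by
    refine (norm_sum_le_of_le _ (n := fun _ => h) fun p hp => ?_).trans ?_
    · obtain ⟨a1, a2⟩ := Finset.mem_filter.1 hp
      have hp0 := nm_pos (mem_PS.1 a1).2.1.ne_zero
      rw [norm_mul, norm_real,
        Real.norm_of_nonneg (Real.log_nonneg ((one_le_div hp0).2 (mem_PS.1 a1).1))]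
      refine (mul_le_of_le_one_left (Real.log_nonneg ((one_le_div hp0).2 (mem_PS.1 a1).1))
        (hf p)).trans ?_
      rw [hl p a1]
      linarith [Real.log_nonpos (x := x / nm p) (by positivity)
        ((div_le_one hp0).2 (by linarith [not_le.1 a2]))]
    · rw [Finset.sum_const, nsmul_eq_mul, mul_comm]
      refine mul_le_mul_of_nonneg_left ((card_PS hx.le hxY fun p hp =>
        ⟨(Finset.mem_filter.1 hp).1, not_le.1 (Finset.mem_filter.1 hp).2⟩).trans ?_) h0.le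
      nlinarith
  have e6 := congrArg norm e4
  rw [norm_mul, norm_real, Real.norm_of_nonneg h0.le] at e6
  rw [e6]
  exact (norm_sub_le _ _).trans (add_le_add (norm_sub_le _ _) e5)

theorem mf_cb (k : O) (l : ℤ) : Mf fun n => cb k n * al n ^ l :=
  ⟨by simp, fun a b => by rw [cb_mul_right, al_mul, mul_zpow]; ring, fun n => by
    by_cases hn : n = 0
    · simp [hn]
    · rw [norm_mul, norm_al_zpow hn, mul_one]
      exact norm_cb_le k n⟩

theorem tsum_Ps (k : O) (j : ℕ) (l : ℤ) (s : ℂ) :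
    ∑' n : O, Ps k j n * Fs (l * j) s n = DS (fun n => (cb k n * al n ^ l) ^ j) s := by
  refine Eq.trans (tsum_congr fun n => ?_) (tsum_subtype (Pr : Set O)
    fun n => (cb k n * al n ^ l) ^ j * (nm n : ℂ) ^ (-s)).symm
  by_cases hn : Prim n
  · rw [Set.indicator_of_mem (show n ∈ (Pr : Set O) from hn), Ps, if_pos hn, Fs, mul_pow, zpow_mul,
      zpow_natCast, mul_assoc]
  · rw [Set.indicator_of_notMem (show n ∉ (Pr : Set O) from hn), Ps, if_neg hn, zero_mul]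

theorem exists_dat (l : ℤ) : ∃ B : ℝ, 1 ≤ B ∧ ∀ (k : O) (Λ : ℝ), k ≠ 0 → (¬ ∃ m, k = m ^ 3) →
    B * nm k ^ 3 ≤ Real.exp Λ → ∃ L₁ L₂ : ℂ → ℂ, Dat (Real.exp 440 ^ 8 * 110 ^ 3) Λ L₁ L₂ ∧
      ∀ s ∈ U, 1 < s.re → L₁ s = DS (fun n => cb k n * al n ^ l) s := by
  obtain ⟨B₁, b1, h1⟩ := exists_cont (l * (1 : ℕ))
  obtain ⟨B₂, b2, h2⟩ := exists_cont (l * (2 : ℕ))
  have h9 : 1 ≤ nm (9 : O) ^ 3 := one_le_pow₀ (one_le_nm (by norm_num))
  refine ⟨(B₁ + B₂) * nm (9 : O) ^ 3, by nlinarith, fun k Λ hk hc hB => ?_⟩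
  have hQ : 9 * k ≠ 0 := mul_ne_zero (by norm_num) hk
  obtain ⟨L₁, d₁, g₁, e₁⟩ := h1 _ _ hQ (per_Ps k 1) (norm_Ps_le k 1) (rsum_Ps hk hc (Or.inl rfl))
  obtain ⟨L₂, d₂, g₂, e₂⟩ := h2 _ _ hQ (per_Ps k 2) (norm_Ps_le k 2) (rsum_Ps hk hc (Or.inr rfl))
  simp only [tsum_Ps, pow_one] at e₁ e₂
  have hf := mf_cb k l
  have hN : 0 ≤ nm (9 * k) ^ 3 := pow_nonneg (nm_nonneg _) 3
  have hB' : (B₁ + B₂) * nm (9 * k) ^ 3 ≤ Real.exp Λ := by rwa [nm_mul, mul_pow, ← mul_assoc]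
  have hC : (110 : ℝ) ≤ Real.exp 440 ^ 8 * 110 ^ 3 := by
    have : 1 ≤ Real.exp 440 ^ 8 := one_le_pow₀ (Real.one_le_exp (by norm_num))
    nlinarith
  refine ⟨L₁, L₂, ⟨d₁, d₂, fun s hs => (g₁ s hs).trans ?_, fun s hs => (g₂ s hs).trans ?_,
    fun s hs h => ?_, fun s hs h => ?_, fun σ t a1 a2 => ?_⟩, e₁⟩
  · exact mul_le_mul_of_nonneg_right (by nlinarith) (norm_nonneg _)
  · exact mul_le_mul_of_nonneg_right (by nlinarith) (norm_nonneg _)
  · rw [e₁ s hs h]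
    exact (hf.norm_DS_le h hs.2).trans (div_le_div_of_nonneg_right hC (by linarith))
  · rw [e₂ s hs h]
    exact (hf.sq.norm_DS_le h hs.2).trans (div_le_div_of_nonneg_right hC (by linarith))
  · rw [e₁ _ ⟨by simp; linarith, by simpa⟩ (by simpa), e₂ _ ⟨by simp; linarith, by simpa⟩ (by simpa)]
    exact hf.prod a1 a2 t

theorem pow_le_exp (n : ℕ) {c : ℝ} (hc : 0 < c) {w : ℝ} (hw : 0 ≤ w) :
    w ^ n ≤ n.factorial / c ^ n * Real.exp (c * w) := by
  have h := Real.pow_div_factorial_le_exp (c * w) (by positivity) n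
  rw [div_le_iff₀ (by positivity), mul_pow] at h
  rw [div_mul_eq_mul_div, le_div_iff₀ (by positivity)]
  linarith

theorem sw (l : ℤ) : ∃ c C : ℝ, 0 < c ∧ 0 < C ∧ ∀ (k : O) (x : ℝ), k ≠ 0 → (¬ ∃ m, k = m ^ 3) →
    2 ≤ x → nm k ≤ Real.exp (c * Real.log x ^ (1 / 10 : ℝ)) →
    ‖∑ p ∈ PS x, cb k p * al p ^ l‖ ≤ C * x * Real.exp (-(c * Real.log x ^ (1 / 10 : ℝ))) := by
  obtain ⟨B, hB, hD⟩ := exists_dat l
  obtain ⟨μ, C, hμ, hC, hR⟩ := riesz (C₀ := Real.exp 440 ^ 8 * 110 ^ 3) (by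
    have : 1 ≤ Real.exp 440 ^ 8 := one_le_pow₀ (Real.one_le_exp (by norm_num))
    nlinarith)
  obtain ⟨A, hA⟩ : ∃ A, A = 3 + 2 * Real.log B := ⟨_, rfl⟩
  have hlB := Real.log_nonneg hB
  have hA3 : 3 ≤ A := by linarith
  have hA0 : 0 < A := by linarith
  obtain ⟨c, hc0, hc1, hc2⟩ : ∃ c : ℝ, 0 < c ∧ 4 * c ≤ μ / A ^ 9 ∧ 4 * c ≤ 1 :=
    ⟨min (μ / A ^ 9) 1 / 4, by positivity, by linarith [min_le_left (μ / A ^ 9) 1],
      by linarith [min_le_right (μ / A ^ 9) 1]⟩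
  obtain ⟨K, hK⟩ : ∃ K, K = A ^ 9 * ((9 : ℕ).factorial / (2 * c) ^ 9) +
    (10 : ℕ).factorial / (2 * c) ^ 10 + 1 := ⟨_, rfl⟩
  have hK0 : 0 < K := by rw [hK]; positivity
  refine ⟨c, 12 * C * K + 10, hc0, by positivity, fun k x hk hn hx hN => ?_⟩
  have hx0 : 0 < x := by linarith
  have hl : 1 / 2 ≤ Real.log x :=
    le_trans (by linarith [Real.log_two_gt_d9]) (Real.log_le_log two_pos hx)
  have hw0 : 0 < Real.log x ^ (1 / 10 : ℝ) := by positivity
  have hw10 : (Real.log x ^ (1 / 10 : ℝ)) ^ 10 = Real.log x := by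
    rw [← Real.rpow_natCast, ← Real.rpow_mul (by linarith)]
    norm_num
  generalize Real.log x ^ (1 / 10 : ℝ) = w at *
  have hw1 : 1 / 2 ≤ w := by
    by_contra h
    have := pow_le_pow_left₀ hw0.le (not_le.1 h).le 10
    rw [hw10] at this
    norm_num at this
    linarith
  obtain ⟨L₁, L₂, D, hL⟩ := hD k (A * w) hk hn (by
    have a1 : nm k ^ 3 ≤ Real.exp w ^ 3 := pow_le_pow_left₀ (nm_nonneg k)
      (hN.trans (Real.exp_le_exp.2 (by nlinarith))) 3
    have a2 : B ≤ Real.exp (2 * Real.log B * w) := by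
      conv_lhs => rw [← Real.exp_log (show 0 < B by linarith)]
      exact Real.exp_le_exp.2 (by nlinarith)
    refine (mul_le_mul a2 a1 (pow_nonneg (nm_nonneg k) 3) (Real.exp_pos _).le).trans (le_of_eq ?_)
    rw [← Real.exp_nat_mul, ← Real.exp_add, hA]
    congr 1
    push_cast
    ring)
  obtain ⟨h, hh⟩ : ∃ h, h = Real.exp (-(c * w)) := ⟨_, rfl⟩
  rw [← hh]
  have h0 : 0 < h := hh ▸ Real.exp_pos _
  have h1 : h ≤ 1 := hh ▸ Real.exp_le_one_iff.2 (by nlinarith)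
  have h4 : h ^ 4 = Real.exp (-(4 * c * w)) := by
    rw [hh, ← Real.exp_nat_mul]
    congr 1
    push_cast
    ring
  have h2 : Real.exp (2 * c * w) * h ^ 4 = h ^ 2 := by
    rw [h4, hh, ← Real.exp_nat_mul, ← Real.exp_add]
    congr 1
    push_cast
    ring
  have key : ∀ y : ℝ, x ≤ y → y ≤ x * Real.exp 1 →
      ‖Rz (fun n => cb k n * al n ^ l) y‖ ≤ 6 * C * K * x * h ^ 2 := fun y a1 a2 => by
    refine (hR _ (A * w) y L₁ L₂ (mf_cb k l) (by nlinarith) D hL (by linarith)).trans ?_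
    have b1 : y ≤ 3 * x := by nlinarith [Real.exp_one_lt_d9]
    have b2 : Real.log y ≤ w ^ 10 + 1 := by
      refine (Real.log_le_log (by linarith) a2).trans (le_of_eq ?_)
      rw [Real.log_mul hx0.ne' (Real.exp_pos 1).ne', Real.log_exp, hw10]
    have b3 : (A * w) ^ 9 + Real.log y ≤ K * Real.exp (2 * c * w) := by
      have u1 := pow_le_exp 9 (c := 2 * c) (by positivity) hw0.le
      have u2 := pow_le_exp 10 (c := 2 * c) (by positivity) hw0.le
      have u3 : 1 ≤ Real.exp (2 * c * w) := Real.one_le_exp (by positivity)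
      have u4 := mul_le_mul_of_nonneg_left u1 (by positivity : 0 ≤ A ^ 9)
      rw [hK, mul_pow]
      linarith
    have b4 : Real.exp (-(A * w)) ≤ h ^ 4 := h4 ▸ Real.exp_le_exp.2 (by nlinarith)
    have b5 : y ^ (-(μ / (A * w) ^ 9)) ≤ h ^ 4 := by
      refine (Real.rpow_le_rpow_of_nonpos hx0 a1 (neg_nonpos.2 (by positivity))).trans ?_
      rw [h4, Real.rpow_def_of_pos hx0, Real.exp_le_exp, ← hw10]
      have : w ^ 10 * -(μ / (A * w) ^ 9) = -(μ / A ^ 9 * w) := by field_simp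
      rw [this]
      linarith [mul_le_mul_of_nonneg_right hc1 hw0.le]
    have b6 : 0 ≤ y ^ (-(μ / (A * w) ^ 9)) := Real.rpow_nonneg (by linarith) _
    calc _ ≤ C * (3 * x) * (K * Real.exp (2 * c * w)) * (h ^ 4 + h ^ 4) := by
          have : 0 ≤ Real.log y := Real.log_nonneg (by linarith)
          gcongr
      _ = 6 * C * K * x * (Real.exp (2 * c * w) * h ^ 4) := by ring
      _ = _ := by rw [h2]
  have k1 := desmooth (mf_cb k l).bd hx0 h0 h1
  have k2 := key x le_rfl (le_mul_of_one_le_right hx0.le (Real.one_le_exp zero_le_one))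
  have k3 := key (x * Real.exp h) (le_mul_of_one_le_right hx0.le (Real.one_le_exp h0.le))
    (by gcongr)
  have k4 : 1 ≤ 3 * (x * h) := by
    have u1 : x * h = Real.exp (w ^ 10 - c * w) := by
      rw [hw10, sub_eq_add_neg, Real.exp_add, Real.exp_log hx0, hh]
    have u2 : -1 ≤ w ^ 10 - c * w := by
      rcases le_total w 1 with a | a
      · nlinarith [pow_pos hw0 10]
      · nlinarith [le_self_pow₀ a (n := 10) (by norm_num)]
    have u3 : Real.exp (-1) ≤ x * h := u1 ▸ Real.exp_le_exp.2 u2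
    have u4 : Real.exp (-1) * Real.exp 1 = 1 := by rw [← Real.exp_add]; simp
    nlinarith [Real.exp_one_lt_d9, Real.exp_pos (-1)]
  refine le_of_mul_le_mul_left (k1.trans ?_) h0
  nlinarith [mul_le_mul_of_nonneg_left k4 h0.le]

open Classical in
/-- the body of `Crest.Agent.R12.StSW` (Siegel-Walfisz for cubic residue symbols) -/
theorem stSW : ∀ l : ℤ, ∃ th c C : ℝ, 0 < th ∧ 0 < c ∧ ∀ (k : O) (x : ℝ), k ≠ 0 →
    (¬ ∃ m : O, k = m ^ 3) → 2 ≤ x → nm k ≤ Real.exp (c * Real.log x ^ th) →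
    ‖∑ p ∈ (ball x).filter (fun p => Prime p ∧ Prim p), cb k p * al p ^ l‖ ≤
      C * x * Real.exp (-(c * Real.log x ^ th)) := fun l =>
  let ⟨c, C, hc, _, h⟩ := sw l
  ⟨1 / 10, c, C, by norm_num, hc, h⟩

end Crest.Agent.R12.SW
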