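import Crest.Agent.R12.SW.Cont
import Crest.Agent.R17.B.Log

/-! Row 12, block SW (owner helper8): the elementary zero-free region (abstract form). -/

set_option autoImplicit false

namespace Crest.Agent.R12.SW

open Crest.Agent.R17 Complex

/-- the data: two holomorphic functions, polynomial growth, the trivial bound, and `3-4-1` -/
structure Dat (C₀ Λ : ℝ) (L₁ L₂ : ℂ → ℂ) : Prop where
  d₁ : DifferentiableOn ℂ L₁ U
  d₂ : DifferentiableOn ℂ L₂ U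
  g₁ : ∀ s ∈ U, ‖L₁ s‖ ≤ Real.exp Λ * ‖s + 1‖
  g₂ : ∀ s ∈ U, ‖L₂ s‖ ≤ Real.exp Λ * ‖s + 1‖
  t₁ : ∀ s ∈ U, 1 < s.re → ‖L₁ s‖ ≤ C₀ / (s.re - 1)
  t₂ : ∀ s ∈ U, 1 < s.re → ‖L₂ s‖ ≤ C₀ / (s.re - 1)
  p : ∀ σ t : ℝ, 1 < σ → σ < 4 →
    (σ - 1) ^ 3 ≤ C₀ * ‖L₁ (σ + t * I)‖ ^ 4 * ‖L₂ (σ + (2 * t : ℝ) * I)‖

theorem upper {C₀ Λ : ℝ} (hC : 1 ≤ C₀) (hΛ : 1 ≤ Λ) {L : ℂ → ℂ} (d : DifferentiableOn ℂ L U)
    (g : ∀ s ∈ U, ‖L s‖ ≤ Real.exp Λ * ‖s + 1‖)
    (t : ∀ s ∈ U, 1 < s.re → ‖L s‖ ≤ C₀ / (s.re - 1)) {s : ℂ} (h1 : 1 - 1 / (4 * Λ) ≤ s.re)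
    (h2 : s.re < 4) (h3 : |s.im| ≤ 3 * Real.exp Λ) : ‖L s‖ ≤ 8 * C₀ * Real.exp 13 * Λ := by
  set δ := 1 / (8 * Λ) with hδ
  have hδ0 : 0 < δ := by positivity
  have hδ1 : δ ≤ 1 / 8 := one_div_le_one_div_of_le (by norm_num) (by linarith)
  have hδΛ : δ * Λ = 1 / 8 := by rw [hδ]; field_simp
  have h1' : 1 - 2 * δ ≤ s.re := by
    have : 1 / (4 * Λ) = 2 * δ := by rw [hδ]; field_simp; norm_num
    linarith
  have hM : C₀ / δ = 8 * C₀ * Λ := by rw [hδ]; field_simp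
  have hM1 : 1 ≤ 8 * C₀ * Λ := by nlinarith
  have he : 1 ≤ Real.exp 13 := Real.one_le_exp (by norm_num)
  have triv : ∀ w ∈ U, 1 + δ ≤ w.re → ‖L w‖ ≤ 8 * C₀ * Λ := fun w hw h =>
    (t w hw (by linarith)).trans (hM ▸ div_le_div_of_nonneg_left (by linarith) hδ0 (by linarith))
  rcases le_total (1 + δ) s.re with h | h
  · refine (triv s ⟨by linarith, h2⟩ h).trans ?_
    nlinarith
  set z₀ : ℂ := 2 + s.im * I with hz₀
  have hn : ‖s - z₀‖ = 2 - s.re := by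
    have : s - z₀ = ((s.re - 2 : ℝ) : ℂ) := by
      apply Complex.ext <;> simp [hz₀]
    rw [this, norm_real, Real.norm_eq_abs, abs_of_nonpos (by linarith), neg_sub]
  have hre : ∀ w : ℂ, |w.re - 2| ≤ ‖w - z₀‖ := fun w => by
    simpa [hz₀] using abs_re_le_norm (w - z₀)
  have hU : Metric.closedBall z₀ (5 / 4) ⊆ U := fun w hw => by
    have := abs_le.1 ((hre w).trans (mem_closedBall_iff_norm.1 hw))
    exact ⟨by linarith [this.1], by linarith [this.2]⟩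
  have hE := Real.add_one_le_exp Λ
  have k := three_circles (f := L) (z₀ := z₀) (z := s) (r₁ := 1 - δ) (r₃ := 5 / 4)
    (M₁ := 8 * C₀ * Λ) (M₃ := Real.exp (5 * Λ)) (by linarith) (by linarith)
    (d.diffContOnCl_ball hU) (fun w hw => ?_) (fun w hw => ?_) (by linarith) (by linarith)
  · rw [hn] at k
    set α := Real.log ((2 - s.re) / (1 - δ)) / Real.log (5 / 4 / (1 - δ)) with hα
    have hd : 0 < 1 - δ := by linarith
    have a1 : 1 / 5 ≤ Real.log (5 / 4 / (1 - δ)) := by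
      refine le_trans ?_ (Real.log_le_log (by norm_num) (le_div_self (by norm_num) hd (by linarith)))
      have := Real.one_sub_inv_le_log_of_pos (x := 5 / 4) (by norm_num)
      linarith
    have a2 : Real.log ((2 - s.re) / (1 - δ)) ≤ 4 * δ := by
      refine (Real.log_le_sub_one_of_pos (div_pos (by linarith) hd)).trans ?_
      rw [sub_le_iff_le_add, div_le_iff₀ hd]
      nlinarith
    have a3 : 0 ≤ α :=
      div_nonneg (Real.log_nonneg ((one_le_div hd).2 (by linarith))) (by linarith)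
    have a4 : α ≤ 20 * δ := by
      rw [hα, div_le_iff₀ (by linarith)]
      nlinarith
    have b1 : (8 * C₀ * Λ) ^ (1 - α) ≤ 8 * C₀ * Λ :=
      Real.rpow_le_self_of_one_le hM1 (by linarith)
    have b2 : Real.exp (5 * Λ) ^ α ≤ Real.exp 13 := by
      rw [← Real.exp_mul, Real.exp_le_exp]
      nlinarith
    refine k.trans ((mul_le_mul b1 b2 (by positivity) (by positivity)).trans (le_of_eq ?_))
    ring
  · have := abs_le.1 ((hre w).trans hw.le)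
    exact triv w ⟨by linarith [this.1], by linarith [this.2]⟩ (by linarith [this.1])
  · refine (g w (hU (mem_closedBall_iff_norm.2 hw.le))).trans ?_
    have e1 : ‖w + 1‖ ≤ 5 / 4 + (3 + |s.im|) := by
      have e : w + 1 = (w - z₀) + (3 + s.im * I) := by rw [hz₀]; ring
      rw [e]
      refine (norm_add_le _ _).trans (add_le_add hw.le ((norm_add_le _ _).trans ?_))
      simp
    have e2 : Real.exp (5 * Λ) = Real.exp Λ * (Real.exp Λ ^ 3 * Real.exp Λ) := by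
      rw [← pow_succ, ← pow_succ', ← Real.exp_nat_mul]
      norm_num
    have e3 : (2 : ℝ) ^ 3 ≤ Real.exp Λ ^ 3 := pow_le_pow_left₀ (by norm_num) (by linarith) 3
    rw [e2]
    refine mul_le_mul_of_nonneg_left (e1.trans ?_) (Real.exp_pos _).le
    nlinarith

theorem zero_free {C₀ : ℝ} (hC : 1 ≤ C₀) : ∃ μ C : ℝ, 0 < μ ∧ μ ≤ 1 / 8 ∧ 0 < C ∧
    ∀ (Λ : ℝ) (L₁ L₂ : ℂ → ℂ), 1 ≤ Λ → Dat C₀ Λ L₁ L₂ → ∀ s : ℂ, 1 - μ / Λ ^ 9 ≤ s.re → s.re ≤ 3 →
      |s.im| ≤ Real.exp Λ → L₁ s ≠ 0 ∧ ‖deriv L₁ s / L₁ s‖ ≤ C * Λ ^ 9 := by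
  set C₁ := 8 * C₀ * Real.exp 13 with hC₁
  have he : 1 ≤ Real.exp 13 := Real.one_le_exp (by norm_num)
  have hC₁1 : 1 ≤ C₁ := by nlinarith
  set K := C₀ * C₁ with hK
  have hK1 : 1 ≤ K := by nlinarith
  set ν := 1 / (32 * C₁ * K) with hν
  have hν0 : 0 < ν := by positivity
  have hν1 : ν ≤ 1 / 8 := one_div_le_one_div_of_le (by norm_num) (by nlinarith)
  have hνe : ν * (32 * C₁ * K) = 1 := by rw [hν]; field_simp
  have hμ1 : ν ^ 4 ≤ 1 / 8 := (pow_le_of_le_one hν0.le (by linarith) (by norm_num)).trans hν1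
  refine ⟨ν ^ 4, 16 * C₁ * K / ν ^ 3, by positivity, hμ1, by positivity,
    fun Λ L₁ L₂ hΛ D s h1 h2 h3 => ?_⟩
  set η := ν ^ 4 / Λ ^ 9 with hη
  have hη0 : 0 < η := by positivity
  have hη1 : η ≤ 1 / (8 * Λ) := by
    rw [hη, div_le_div_iff₀ (by positivity) (by positivity)]
    have : Λ ≤ Λ ^ 9 := le_self_pow₀ hΛ (by norm_num)
    nlinarith
  have hδ1 : 1 / (8 * Λ) ≤ 1 / 8 := one_div_le_one_div_of_le (by norm_num) (by linarith)
  have hE := Real.add_one_le_exp Λ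
  have der : ∀ w : ℂ, 1 - η ≤ w.re → w.re ≤ 3 → |w.im| ≤ Real.exp Λ →
      ‖deriv L₁ w‖ ≤ 8 * C₁ * Λ ^ 2 := fun w a1 a2 a3 => by
    have hb : ∀ z ∈ Metric.closedBall w (1 / (8 * Λ)), 1 - 1 / (4 * Λ) ≤ z.re ∧ z.re < 4 ∧
        |z.im| ≤ 3 * Real.exp Λ := fun z hz => by
      rw [mem_closedBall_iff_norm] at hz
      have u1 := abs_le.1 ((abs_re_le_norm (z - w)).trans hz)
      have u2 := (abs_im_le_norm (z - w)).trans hz
      rw [sub_re] at u1
      rw [sub_im] at u2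
      have u3 := abs_sub_abs_le_abs_sub z.im w.im
      have u4 : 1 / (4 * Λ) = 2 * (1 / (8 * Λ)) := by field_simp; norm_num
      exact ⟨by linarith [u1.1], by linarith [u1.2], by linarith⟩
    have u4 : 1 / (4 * Λ) ≤ 1 / 4 := one_div_le_one_div_of_le (by norm_num) (by linarith)
    refine (norm_deriv_le_of_forall_mem_sphere_norm_le (R := 1 / (8 * Λ)) (C := C₁ * Λ)
      (by positivity) (D.d₁.diffContOnCl_ball fun z hz => ⟨by linarith [(hb z hz).1], (hb z hz).2.1⟩)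
      fun z hz => ?_).trans (le_of_eq (by field_simp))
    obtain ⟨b1, b2, b3⟩ := hb z (Metric.sphere_subset_closedBall hz)
    exact upper hC hΛ D.d₁ D.g₁ D.t₁ b1 b2 b3
  have low : ∀ σ : ℝ, 1 + η ≤ σ → σ ≤ 3 → ν ^ 3 / (K * Λ ^ 7) ≤ ‖L₁ (σ + s.im * I)‖ :=
    fun σ a1 a2 => by
      have u1 := D.p σ s.im (by linarith) (by linarith)
      have u2 : ‖L₂ (σ + (2 * s.im : ℝ) * I)‖ ≤ C₁ * Λ := upper hC hΛ D.d₂ D.g₂ D.t₂
        (by simp; have : 0 < Λ⁻¹ * 4⁻¹ := by positivity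
            linarith) (by simp; linarith)
        (by simp; linarith)
      have u3 : η ^ 3 ≤ K * Λ * ‖L₁ (σ + s.im * I)‖ ^ 4 :=
        calc η ^ 3 ≤ (σ - 1) ^ 3 := pow_le_pow_left₀ hη0.le (by linarith) 3
          _ ≤ C₀ * ‖L₁ (σ + s.im * I)‖ ^ 4 * (C₁ * Λ) :=
            u1.trans (mul_le_mul_of_nonneg_left u2 (by positivity))
          _ = _ := by rw [hK]; ring
      refine (pow_le_pow_iff_left₀ (by positivity) (norm_nonneg _) (n := 4) (by norm_num)).1 ?_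
      have u4 : (ν ^ 3 / (K * Λ ^ 7)) ^ 4 = η ^ 3 / (K ^ 4 * Λ) := by
        rw [hη]
        field_simp
      rw [u4, div_le_iff₀ (by positivity)]
      refine u3.trans ?_
      rw [mul_comm]
      have : K ≤ K ^ 4 := le_self_pow₀ hK1 (by norm_num)
      gcongr
  have hlam : 0 < ν ^ 3 / (K * Λ ^ 7) := by positivity
  have low2 : ν ^ 3 / (K * Λ ^ 7) / 2 ≤ ‖L₁ s‖ := by
    rcases le_total (1 + η) s.re with h | h
    · have := low s.re h h2
      rw [re_add_im] at this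
      linarith
    have u1 := low (1 + η) le_rfl (by linarith)
    have hc : Convex ℝ {w : ℂ | (1 - η ≤ w.re ∧ w.re ≤ 3) ∧ s.im ≤ w.im ∧ w.im ≤ s.im} :=
      ((convex_halfSpace_re_ge _).inter (convex_halfSpace_re_le _)).inter
        ((convex_halfSpace_im_ge _).inter (convex_halfSpace_im_le _))
    have u2 := hc.norm_image_sub_le_of_norm_deriv_le (f := L₁) (C := 8 * C₁ * Λ ^ 2)
      (fun w hw => D.d₁.differentiableAt
        (isOpen_U.mem_nhds ⟨by linarith [hw.1.1], by linarith [hw.1.2]⟩))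
      (fun w hw => der w hw.1.1 hw.1.2 (by rwa [le_antisymm hw.2.2 hw.2.1]))
      (x := s) (y := ((1 + η : ℝ) : ℂ) + s.im * I) ⟨⟨h1, h2⟩, le_rfl, le_rfl⟩
      (by simp; constructor <;> linarith)
    have u3 : ‖((1 + η : ℝ) : ℂ) + s.im * I - s‖ ≤ 2 * η := by
      have : ((1 + η : ℝ) : ℂ) + s.im * I - s = ((1 + η - s.re : ℝ) : ℂ) := by
        apply Complex.ext <;> simp
      rw [this, norm_real, Real.norm_eq_abs, abs_of_nonneg (by linarith)]
      linarith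
    have u4 : 8 * C₁ * Λ ^ 2 * (2 * η) = ν ^ 3 / (K * Λ ^ 7) / 2 := by
      rw [hη]
      field_simp
      linear_combination hνe
    have u5 := norm_sub_norm_le (L₁ (((1 + η : ℝ) : ℂ) + s.im * I)) (L₁ s)
    have u6 := mul_le_mul_of_nonneg_left u3 (by positivity : 0 ≤ 8 * C₁ * Λ ^ 2)
    linarith
  refine ⟨norm_pos_iff.1 (by linarith), ?_⟩
  rw [norm_div]
  refine (div_le_div₀ (by positivity) (der s h1 h2 h3) (by positivity) low2).trans (le_of_eq ?_)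
  field_simp
  norm_num

end Crest.Agent.R12.SW
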