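import Crest.Agent.R12.SW.Cont
import Crest.Agent.R17.C.Euler
import Crest.Agent.R17.B.Sum

/-! Row 12, block SW (owner helper8): the prime series, the Euler product and `3-4-1`. -/

set_option autoImplicit false

namespace Crest.Agent.R12.SW

open Crest.Agent.R17 Crest.Agent.R17.C Complex

/-- bounded and completely multiplicative on the primary elements -/
structure Mf (f : O → ℂ) : Prop where
  one : f 1 = 1
  mul : ∀ a b : Pr, f (a * b) = f a * f b
  bd : ∀ n, ‖f n‖ ≤ 1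

theorem mf_one : Mf fun _ => 1 := ⟨rfl, fun _ _ => (mul_one _).symm, fun _ => by simp⟩

theorem Mf.sq {f : O → ℂ} (h : Mf f) : Mf fun n => f n ^ 2 :=
  ⟨by rw [h.one, one_pow], fun a b => by rw [h.mul, mul_pow], fun n => by
    rw [norm_pow]
    exact pow_le_one₀ (norm_nonneg _) (h.bd n)⟩

/-- the prime series -/
noncomputable def PD (f : O → ℂ) : ℂ → ℂ := DD (fun p : PPr => f p) fun p => nm p

/-- the contribution of the higher prime powers -/
noncomputable def RD (f : O → ℂ) (s : ℂ) : ℂ :=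
  ∑' p : PPr, (-log (1 - f p * (nm p : ℂ) ^ (-s)) - f p * (nm p : ℂ) ^ (-s))

theorem tsum_nm_le {σ : ℝ} (h1 : 1 < σ) (h2 : σ < 4) : ∑' n : O, nm n ^ (-σ) ≤ 110 / (σ - 1) := by
  classical
  set r : ℝ := 2 ^ (1 - σ) with hr
  have hr0 : 0 < r := by positivity
  have hl := Real.log_two_gt_d9
  have hl' := Real.log_two_lt_d9
  have hu : 0 < σ - 1 := by linarith
  have hr1 : r * (1 + (σ - 1) * Real.log 2) ≤ 1 := by
    have h := Real.add_one_le_exp ((σ - 1) * Real.log 2)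
    have e : r * Real.exp ((σ - 1) * Real.log 2) = 1 := by
      rw [hr, Real.rpow_def_of_pos two_pos, ← Real.exp_add, ← Real.exp_zero]
      congr 1
      ring
    nlinarith
  have hr2 : (σ - 1) / 5 ≤ 1 - r := by
    by_contra h
    have h3 : 1 - (σ - 1) / 5 < r := by linarith
    have h4 : (1 - (σ - 1) / 5) * (1 + (σ - 1) * (2 / 3)) < r * (1 + (σ - 1) * Real.log 2) :=
      mul_lt_mul h3 (by nlinarith) (by positivity) hr0.le
    nlinarith
  have hr3 : r < 1 := by linarith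
  refine Real.tsum_le_of_sum_le (fun n => Real.rpow_nonneg (nm_nonneg n) _) fun A => ?_
  rw [← Finset.sum_erase A (a := 0) (by rw [nm_zero, Real.zero_rpow (by linarith)])]
  refine (cta_dyadic (fun n hn => Finset.ne_of_mem_erase hn) _ (fun i => ((2 : ℝ) ^ i) ^ (-σ))
    (fun i => by positivity) (fun n hn => Real.rpow_le_rpow_of_nonpos (by positivity)
      (cta_log (Finset.ne_of_mem_erase hn)).1 (by linarith))
    ((A.erase 0).image fun n => Nat.log 2 (nN n))
    fun n hn => Finset.mem_image_of_mem _ hn).trans ?_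
  have e2 : ∀ i : ℕ, (2 : ℝ) ^ i * ((2 : ℝ) ^ i) ^ (-σ) = r ^ i := fun i => by
    rw [hr, ← Real.rpow_natCast, ← Real.rpow_natCast, ← Real.rpow_mul zero_le_two,
      ← Real.rpow_mul zero_le_two, ← Real.rpow_add two_pos]
    congr 1
    ring
  simp only [e2, ← Finset.mul_sum]
  have h3 := (summable_geometric_of_lt_one hr0.le hr3).sum_le_tsum
    ((A.erase 0).image fun n => Nat.log 2 (nN n)) fun i _ => (pow_pos hr0 i).le
  rw [tsum_geometric_of_lt_one hr0.le hr3] at h3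
  have h4 : (1 - r)⁻¹ ≤ ((σ - 1) / 5)⁻¹ := inv_anti₀ (by positivity) hr2
  calc _ ≤ 22 * ((σ - 1) / 5)⁻¹ := by linarith
    _ = _ := by field_simp; norm_num

theorem summable_PPr {σ : ℝ} (hσ : 1 < σ) : Summable fun p : PPr => nm p ^ (-σ) :=
  (summable_nm_rpow hσ).subtype _

variable {f : O → ℂ} {s : ℂ}

theorem Mf.adm (h : Mf f) {σ : ℝ} (hσ : 1 < σ) : Adm (fun p : PPr => f p) (fun p => nm p) σ :=
  ⟨fun p _ => nm_pos (Prime.ne_zero p.2.1), Summable.of_nonneg_of_le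
    (fun p => mul_nonneg (norm_nonneg _) (Real.rpow_nonneg (nm_nonneg _) _))
    (fun p => mul_le_of_le_one_left (Real.rpow_nonneg (nm_nonneg _) _) (h.bd p)) (summable_PPr hσ)⟩

theorem Mf.norm_PD_le (h : Mf f) (h1 : 1 < s.re) (h2 : s.re < 4) : ‖PD f s‖ ≤ 110 / (s.re - 1) := by
  refine ((h.adm h1).norm_DD_le rfl).trans (le_trans ?_ (tsum_nm_le h1 h2))
  exact (h.adm h1).2.tsum_le_tsum_of_inj Subtype.val Subtype.val_injective
    (fun n _ => Real.rpow_nonneg (nm_nonneg _) _)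
    (fun p => mul_le_of_le_one_left (Real.rpow_nonneg (nm_nonneg _) _) (h.bd p))
    (summable_nm_rpow h1)

theorem Mf.norm_DS_le (h : Mf f) (h1 : 1 < s.re) (h2 : s.re < 4) : ‖DS f s‖ ≤ 110 / (s.re - 1) := by
  refine (tsum_of_norm_bounded (eua_summable h1).hasSum
    (eua_norm_le (fun n => h.bd n) le_rfl)).trans (le_trans ?_ (tsum_nm_le h1 h2))
  exact (eua_summable h1).tsum_le_tsum_of_inj Subtype.val Subtype.val_injective
    (fun n _ => Real.rpow_nonneg (nm_nonneg _) _) (fun _ => le_rfl) (summable_nm_rpow h1)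

theorem Mf.diff_PD (h : Mf f) : DifferentiableOn ℂ (PD f) {s | 1 < s.re} := fun s hs => by
  have hs' : 1 < s.re := hs
  refine (((h.adm (σ := (1 + s.re) / 2) (by linarith)).diffOn_DD
    fun p _ => one_le_nm p.2.1.ne_zero).1.differentiableAt ?_).differentiableWithinAt
  exact (isOpen_lt continuous_const continuous_re).mem_nhds (show (1 + s.re) / 2 < s.re by linarith)

theorem Mf.x_le (h : Mf f) (hs : 5 / 8 ≤ s.re) (p : PPr) :
    ‖f p * (nm p : ℂ) ^ (-s)‖ ≤ 1 / 2 ∧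
      ‖f p * (nm p : ℂ) ^ (-s)‖ ^ 2 ≤ nm p ^ (-(5 / 4) : ℝ) := by
  have h4 := four_le_nm p.2.1 p.2.2
  have h1 : ‖f p * (nm p : ℂ) ^ (-s)‖ ≤ nm p ^ (-(5 / 8) : ℝ) :=
    eua_norm_le (fun n => h.bd n) hs ⟨p, p.2.2⟩
  constructor
  · refine h1.trans ((Real.rpow_le_rpow_of_nonpos (by norm_num) h4 (by norm_num)).trans
      ((Real.rpow_le_rpow_of_exponent_le (by norm_num) (by norm_num : -(5 / 8 : ℝ) ≤ -(1 / 2))).trans
        (le_of_eq ?_)))
    rw [Real.rpow_neg (by norm_num), ← Real.sqrt_eq_rpow,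
      show (4 : ℝ) = 2 ^ 2 by norm_num, Real.sqrt_sq (by norm_num)]
    norm_num
  · refine (pow_le_pow_left₀ (norm_nonneg _) h1 2).trans (le_of_eq ?_)
    rw [← Real.rpow_natCast, ← Real.rpow_mul (by linarith)]
    norm_num

theorem Mf.r_le (h : Mf f) (hs : 5 / 8 ≤ s.re) (p : PPr) :
    ‖-log (1 - f p * (nm p : ℂ) ^ (-s)) - f p * (nm p : ℂ) ^ (-s)‖ ≤ nm p ^ (-(5 / 4) : ℝ) := by
  obtain ⟨h1, h2⟩ := h.x_le hs p
  generalize f p * (nm p : ℂ) ^ (-s) = x at h1 h2 ⊢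
  have k := norm_log_one_add_sub_self_le (z := -x) (by rw [norm_neg]; linarith)
  have e : -log (1 - x) - x = -(log (1 + -x) - -x) := by rw [← sub_eq_add_neg]; ring
  rw [e, norm_neg]
  refine k.trans (le_trans ?_ h2)
  rw [norm_neg, div_le_iff₀ two_pos]
  refine mul_le_mul_of_nonneg_left ?_ (sq_nonneg _)
  rw [inv_le_comm₀ (by linarith) two_pos]
  linarith

theorem Mf.norm_RD_le (h : Mf f) (hs : 5 / 8 ≤ s.re) : ‖RD f s‖ ≤ 440 := by
  refine (tsum_of_norm_bounded (summable_PPr (σ := 5 / 4) (by norm_num)).hasSum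
    (h.r_le hs)).trans (le_trans ?_ ((tsum_nm_le (σ := 5 / 4) (by norm_num) (by norm_num)).trans
      (by norm_num)))
  exact (summable_PPr (by norm_num)).tsum_le_tsum_of_inj Subtype.val Subtype.val_injective
    (fun n _ => Real.rpow_nonneg (nm_nonneg _) _) (fun _ => le_rfl) (summable_nm_rpow (by norm_num))

theorem Mf.diff_RD (h : Mf f) : DifferentiableOn ℂ (RD f) {s | 5 / 8 < s.re} := by
  refine differentiableOn_tsum_of_summable_norm (summable_PPr (σ := 5 / 4) (by norm_num))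
    (fun p => ?_) (isOpen_lt continuous_const continuous_re) fun p s hs => h.r_le (le_of_lt hs) p
  have d : Differentiable ℂ fun s : ℂ => f p * (nm p : ℂ) ^ (-s) :=
    (differentiable_id.neg.const_cpow
      (Or.inl (ofReal_ne_zero.2 (nm_pos p.2.1.ne_zero).ne'))).const_mul _
  refine (DifferentiableOn.neg (DifferentiableOn.clog (d.const_sub 1).differentiableOn
    fun s hs => Or.inl ?_)).sub d.differentiableOn
  have h1 := (re_le_norm _).trans (h.x_le (le_of_lt hs) p).1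
  rw [sub_re, one_re]
  linarith

theorem Mf.exp_eq (h : Mf f) (hs : 1 < s.re) : exp (PD f s + RD f s) = DS f s := by
  have k := exp_log_euler (fun n => f n * (nm n : ℂ) ^ (-s)) (by simp [h.one])
    (fun a b => by rw [h.mul, euc_cpow]; ring) (summable_norm_DS (fun n => h.bd n) hs)
  rw [DS, ← k, PD, DD, RD, ← ((h.adm hs).summable_DD rfl).of_norm.tsum_add
    (Summable.of_norm_bounded (summable_PPr (σ := 5 / 4) (by norm_num)) (h.r_le (by linarith)))]
  simp only [add_sub_cancel]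

theorem Mf.exp_le (h : Mf f) (hs : 1 < s.re) :
    Real.exp (PD f s).re ≤ Real.exp 440 * ‖DS f s‖ := by
  rw [← h.exp_eq hs, norm_exp, ← Real.exp_add, Real.exp_le_exp, add_re]
  have := abs_le.1 ((abs_re_le_norm _).trans (h.norm_RD_le (s := s) (by linarith)))
  linarith [this.1]

theorem Mf.comb (h : Mf f) {σ : ℝ} (hσ : 1 < σ) (t : ℝ) :
    0 ≤ 3 * (PD (fun _ => 1) σ).re + 4 * (PD f (σ + t * I)).re +
      (PD (fun n => f n ^ 2) (σ + (2 * t : ℝ) * I)).re := by
  have h0 := (hasSum_re ((mf_one.adm hσ).summable_DD (s := σ) (by simp)).of_norm.hasSum).mul_left 3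
  have h1 := (hasSum_re
    ((h.adm hσ).summable_DD (s := σ + t * I) (by simp)).of_norm.hasSum).mul_left 4
  have h2 := hasSum_re
    ((h.sq.adm hσ).summable_DD (s := σ + (2 * t : ℝ) * I) (by simp)).of_norm.hasSum
  refine ((h0.add h1).add h2).nonneg fun p => ?_
  have hp := nm_pos p.2.1.ne_zero
  have hc : (nm p : ℂ) ≠ 0 := ofReal_ne_zero.2 hp.ne'
  have e0 : (nm p : ℂ) ^ (-(σ : ℂ)) = ((nm p ^ (-σ) : ℝ) : ℂ) := by
    rw [ofReal_cpow hp.le, ofReal_neg]
  set z : ℂ := f p * (nm p : ℂ) ^ (-(t * I)) with hz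
  have e1 : f p * (nm p : ℂ) ^ (-(σ + t * I)) = ((nm p ^ (-σ) : ℝ) : ℂ) * z := by
    rw [neg_add, cpow_add _ _ hc, e0, hz]
    ring
  have e2 : f p ^ 2 * (nm p : ℂ) ^ (-(σ + (2 * t : ℝ) * I)) = ((nm p ^ (-σ) : ℝ) : ℂ) * z ^ 2 := by
    have : -((σ : ℂ) + (2 * t : ℝ) * I) = -(σ : ℂ) + (-(t * I) + -(t * I)) := by
      push_cast
      ring
    rw [this, cpow_add _ _ hc, cpow_add _ _ hc, e0, hz]
    ring
  have hz1 : ‖z‖ ≤ 1 := by
    rw [hz, norm_mul, norm_cpow_eq_rpow_re_of_pos hp]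
    simpa using h.bd p
  have hz2 : z.re ^ 2 + z.im ^ 2 ≤ 1 := by
    have := pow_le_one₀ (norm_nonneg z) hz1 (n := 2)
    rw [Complex.sq_norm, normSq_apply] at this
    linarith
  rw [e1, e2, e0]
  clear_value z
  rw [one_mul, re_ofReal_mul, re_ofReal_mul, ofReal_re, pow_two z, mul_re]
  have ha : 0 < nm (p : O) ^ (-σ) := Real.rpow_pos_of_pos hp _
  have : 0 ≤ 3 + 4 * z.re + (z.re * z.re - z.im * z.im) := by nlinarith [sq_nonneg (1 + z.re)]
  linarith [mul_nonneg ha.le this]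

theorem Mf.prod (h : Mf f) {σ : ℝ} (h1 : 1 < σ) (h2 : σ < 4) (t : ℝ) :
    (σ - 1) ^ 3 ≤ Real.exp 440 ^ 8 * 110 ^ 3 * ‖DS f (σ + t * I)‖ ^ 4 *
      ‖DS (fun n => f n ^ 2) (σ + (2 * t : ℝ) * I)‖ := by
  have k := Real.one_le_exp (h.comb h1 t)
  have a0 := (mf_one.exp_le (s := σ) (by simpa)).trans (mul_le_mul_of_nonneg_left
    (mf_one.norm_DS_le (by simpa) (by simpa)) (Real.exp_pos _).le)
  have a1 := h.exp_le (s := σ + t * I) (by simpa)
  have a2 := h.sq.exp_le (s := σ + (2 * t : ℝ) * I) (by simpa)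
  rw [ofReal_re] at a0
  rw [Real.exp_add, Real.exp_add, show (3 : ℝ) = (3 : ℕ) by norm_num, Real.exp_nat_mul,
    show (4 : ℝ) = (4 : ℕ) by norm_num, Real.exp_nat_mul] at k
  have hu : 0 < σ - 1 := by linarith
  have k2 : 1 ≤ (Real.exp 440 * (110 / (σ - 1))) ^ 3 * (Real.exp 440 * ‖DS f (σ + t * I)‖) ^ 4 *
      (Real.exp 440 * ‖DS (fun n => f n ^ 2) (σ + (2 * t : ℝ) * I)‖) := k.trans (by gcongr)
  refine (le_mul_of_one_le_right (by positivity) k2).trans (le_of_eq ?_)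
  field_simp

end Crest.Agent.R12.SW
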