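import Crest.Agent.R12.SW.Core
import Crest.Agent.R12.SW.Euler
import Crest.Agent.R17.B.Line
import Crest.Agent.Lib.SW.PerronA

/-! Row 12, block SW (owner helper8): Riesz means of the prime sum. -/

set_option autoImplicit false

namespace Crest.Agent.R12.SW

open Crest.Agent.R17 Crest.Agent.R17.C Complex MeasureTheory Set
open scoped Real

/-- the kernel `x^s / s²` -/
noncomputable def Kr (x : ℝ) (s : ℂ) : ℂ := (x : ℂ) ^ s / s ^ 2

theorem norm_Kr {x : ℝ} (hx : 0 < x) (s : ℂ) : ‖Kr x s‖ = x ^ s.re / (s.re ^ 2 + s.im ^ 2) := by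
  rw [Kr, norm_div, norm_cpow_eq_rpow_re_of_pos hx, norm_pow, Complex.sq_norm, normSq_apply,
    ← sq, ← sq]

theorem diff_Kr {x : ℝ} (hx : 0 < x) : DifferentiableOn ℂ (Kr x) {s | 0 < s.re} :=
  (differentiable_id.const_cpow (Or.inl (ofReal_ne_zero.2 hx.ne'))).differentiableOn.div
    (differentiableOn_id.pow 2) fun s hs => pow_ne_zero 2 fun h : s = 0 => by
      rw [h] at hs
      simp at hs

theorem vint_Kr {x σ : ℝ} (hx : 0 < x) (hσ : 0 < σ) : VInt σ (Kr x) := by
  refine Integrable.mono' ((lineb_poisson hσ.ne').1.const_mul (x ^ σ / σ))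
    (lineb_cont (σ₁ := σ) (σ₂ := σ) ((diff_Kr hx).mono fun s hs => hσ.trans_le hs.1) le_rfl
      le_rfl).aestronglyMeasurable (Filter.Eventually.of_forall fun y => le_of_eq ?_)
  rw [norm_Kr hx]
  simp only [add_re, ofReal_re, mul_re, I_re, mul_zero, ofReal_im, I_im, mul_one, sub_self,
    add_zero, add_im, mul_im, zero_add]
  field_simp

theorem VI_Kr {x σ : ℝ} (hx : 0 < x) (hσ : 1 ≤ σ) :
    VI σ (Kr x) = ((max (Real.log x) 0 : ℝ) : ℂ) := by
  have h := Measure.integral_comp_mul_left (fun y : ℝ => Kr x (σ + y * I)) (2 * π)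
  rw [abs_of_pos (by positivity), real_smul, ← one_div] at h
  rw [VI, ← h, Crest.Agent.SW.pa_inversion hσ]
  refine integral_congr_ae (Filter.Eventually.of_forall fun ξ => ?_)
  simp only [Kr, Crest.Agent.SW.paS]
  rw [cpow_def_of_ne_zero (ofReal_ne_zero.2 hx.ne'), ← ofReal_log hx.le, mul_comm, mul_one_div]

/-- the Riesz mean -/
noncomputable def Rz (f : O → ℂ) (x : ℝ) : ℂ :=
  ∑' p : PPr, f p * ((max (Real.log (x / nm p)) 0 : ℝ) : ℂ)

theorem Mf.Rz_eq {f : O → ℂ} (h : Mf f) {x σ : ℝ} (hx : 0 < x) (hσ : 1 < σ) :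
    VInt σ (fun s => Kr x s * PD f s) ∧ Rz f x = VI σ fun s => Kr x s * PD f s := by
  obtain ⟨h1, h2⟩ := (h.adm hσ).VI_mul_DD (vint_Kr hx (by linarith))
  refine ⟨h1, Eq.trans (tsum_congr fun p => ?_) h2.tsum_eq⟩
  have hp := nm_pos p.2.1.ne_zero
  rw [← VI_Kr (div_pos hx hp) hσ.le]
  congr 2
  funext s
  rw [Kr, Kr, ofReal_div, div_cpow_ofReal_nonneg hx.le hp.le, cpow_neg]
  ring

theorem contour {x σ₁ T S S₂ : ℝ} {F G : ℂ → ℂ} (hx : 2 ≤ x) (h1 : 1 / 2 ≤ σ₁) (h2 : σ₁ ≤ 1)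
    (hT : 1 ≤ T) (hG : DifferentiableOn ℂ G (rect σ₁ (1 + 1 / Real.log x) 0 T))
    (hS : ∀ s ∈ rect σ₁ (1 + 1 / Real.log x) 0 T, ‖G s‖ ≤ S)
    (hFG : ∀ s : ℂ, s.re = 1 + 1 / Real.log x → |s.im| ≤ T → F s = G s)
    (hF : ∀ s : ℂ, s.re = 1 + 1 / Real.log x → ‖F s‖ ≤ S₂)
    (hI : VInt (1 + 1 / Real.log x) fun s => Kr x s * F s) :
    ‖VI (1 + 1 / Real.log x) fun s => Kr x s * F s‖ ≤ 3 * x * S₂ / T + 6 * x * S / T + S * x ^ σ₁ := by
  set σ₂ := 1 + 1 / Real.log x with hσ₂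
  have hx0 : 0 < x := by linarith
  have hl : 2 / 3 ≤ Real.log x :=
    le_trans (by linarith [Real.log_two_gt_d9]) (Real.log_le_log two_pos hx)
  have hl1 : 0 < 1 / Real.log x := by positivity
  have hl2 : 1 / Real.log x ≤ 3 / 2 := by
    rw [div_le_iff₀ (by linarith)]
    linarith
  have hp : x ^ σ₂ ≤ 3 * x := by
    rw [hσ₂, Real.rpow_add hx0, Real.rpow_one, Real.rpow_def_of_pos hx0,
      mul_one_div_cancel (by linarith), mul_comm]
    exact mul_le_mul_of_nonneg_right (by linarith [Real.exp_one_lt_d9]) hx0.le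
  have hS0 : 0 ≤ S := (norm_nonneg _).trans (hS σ₁ ⟨le_rfl, by simp; linarith, by simp; linarith⟩)
  have hS2 : 0 ≤ S₂ := (norm_nonneg _).trans (hF σ₂ (ofReal_re _))
  have hπ := Real.pi_pos
  have hc : ‖((1 / (2 * π) : ℝ) : ℂ)‖ = 1 / (2 * π) := by
    rw [norm_real, Real.norm_of_nonneg (by positivity)]
  have a1 : ‖VI σ₂ (fun s => Kr x s * F s) - VT σ₂ (0 - T) (0 + T) (fun s => Kr x s * G s)‖ ≤
      3 * x * S₂ / T := by
    have e1 : VT σ₂ (0 - T) (0 + T) (fun s => Kr x s * G s) = ((1 / (2 * π) : ℝ) : ℂ) *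
        ∫ y in Ioc (0 - T) (0 + T), Kr x (σ₂ + y * I) * F (σ₂ + y * I) := by
      rw [VT, intervalIntegral.integral_of_le (by linarith)]
      congr 1
      refine setIntegral_congr_fun measurableSet_Ioc fun y hy => ?_
      rw [hFG _ (by simp) (by
        simp only [add_im, ofReal_im, mul_im, ofReal_re, I_im, mul_one, I_re, mul_zero, add_zero,
          zero_add]
        exact abs_le.2 ⟨by linarith [hy.1], by linarith [hy.2]⟩)]
    rw [e1, VI, ← integral_add_compl (measurableSet_Ioc (a := 0 - T) (b := 0 + T)) hI, ← mul_sub,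
      add_sub_cancel_left, norm_mul, hc]
    obtain ⟨i1, i2⟩ := lineb_poisson (a := T) (by linarith)
    have i3 := i1.const_mul (6 * x * S₂ / T)
    have k : ‖∫ y in (Ioc (0 - T) (0 + T))ᶜ, Kr x (σ₂ + y * I) * F (σ₂ + y * I)‖ ≤
        ∫ y, 6 * x * S₂ / T * (T / (T ^ 2 + y ^ 2)) := by
      refine (norm_integral_le_of_norm_le i3.integrableOn
        (ae_restrict_of_forall_mem measurableSet_Ioc.compl fun y hy => ?_)).trans
        (setIntegral_le_integral i3 (Filter.Eventually.of_forall fun y => by positivity))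
      have hy' : T ^ 2 ≤ y ^ 2 := by
        rw [mem_compl_iff, mem_Ioc, not_and_or, not_lt, not_le] at hy
        rcases hy with hy | hy <;> nlinarith
      rw [norm_mul, norm_Kr hx0]
      simp only [add_re, ofReal_re, mul_re, I_re, mul_zero, ofReal_im, I_im, mul_one, sub_self,
        add_zero, add_im, mul_im, zero_add]
      calc _ ≤ 3 * x / ((T ^ 2 + y ^ 2) / 2) * S₂ := by
            refine mul_le_mul (div_le_div₀ (by positivity) hp (by positivity) ?_)
              (hF _ (by simp)) (norm_nonneg _) (by positivity)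
            nlinarith [sq_nonneg σ₂]
        _ = _ := by field_simp; ring
    rw [integral_const_mul, i2, abs_of_pos (by linarith)] at k
    refine (mul_le_mul_of_nonneg_left k (by positivity)).trans (le_of_eq ?_)
    field_simp
    ring
  have a2 := VT_rect (σ₁ := σ₁) (σ₂ := σ₂) (t₀ := 0) (T := T) (M := 3 * x * S / T)
    (F := fun s => Kr x s * G s) (by linarith) (by linarith)
    (((diff_Kr hx0).mono fun s hs => lt_of_lt_of_le (by linarith) hs.1).mul hG) fun s hs ht => by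
      rw [sub_zero] at ht
      have h3 : T ≤ s.re ^ 2 + s.im ^ 2 := by
        rw [← sq_abs s.im, ht]
        nlinarith [sq_nonneg s.re]
      rw [norm_mul, norm_Kr hx0, mul_div_right_comm]
      exact mul_le_mul (div_le_div₀ (by positivity)
        ((Real.rpow_le_rpow_of_exponent_le (by linarith) hs.2.1).trans hp) (by linarith) h3)
        (hS s hs) (norm_nonneg _) (by positivity)
  have a3 : ‖VT σ₁ (0 - T) (0 + T) fun s => Kr x s * G s‖ ≤ S * x ^ σ₁ := by
    obtain ⟨i1, i2⟩ := lineb_poisson (a := 1 / 2) (by norm_num)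
    have i3 := i1.const_mul (2 * (S * x ^ σ₁))
    rw [VT, intervalIntegral.integral_of_le (by linarith), norm_mul, hc]
    have k : ‖∫ y in Ioc (0 - T) (0 + T), Kr x (σ₁ + y * I) * G (σ₁ + y * I)‖ ≤
        ∫ y, 2 * (S * x ^ σ₁) * (1 / 2 / ((1 / 2) ^ 2 + y ^ 2)) := by
      refine (norm_integral_le_of_norm_le i3.integrableOn
        (ae_restrict_of_forall_mem measurableSet_Ioc fun y hy => ?_)).trans
        (setIntegral_le_integral i3 (Filter.Eventually.of_forall fun y => by positivity))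
      rw [norm_mul, norm_Kr hx0]
      simp only [add_re, ofReal_re, mul_re, I_re, mul_zero, ofReal_im, I_im, mul_one, sub_self,
        add_zero, add_im, mul_im, zero_add]
      calc _ ≤ x ^ σ₁ / ((1 / 2) ^ 2 + y ^ 2) * S := by
            refine mul_le_mul (div_le_div_of_nonneg_left (by positivity) (by positivity) ?_)
              (hS _ ⟨by simp, by simp; linarith, ?_⟩) (norm_nonneg _) (by positivity)
            · nlinarith
            · simp only [add_im, ofReal_im, mul_im, ofReal_re, I_im, mul_one, I_re, mul_zero,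
                add_zero, zero_add, sub_zero]
              exact abs_le.2 ⟨by linarith [hy.1], by linarith [hy.2]⟩
        _ = _ := by field_simp
    rw [integral_const_mul, i2, abs_of_pos (by norm_num)] at k
    refine (mul_le_mul_of_nonneg_left k (by positivity)).trans (le_of_eq ?_)
    field_simp
  have a4 : (σ₂ - σ₁) * (3 * x * S / T) ≤ 2 * (3 * x * S / T) :=
    mul_le_mul_of_nonneg_right (by linarith) (by positivity)
  have e : 6 * x * S / T = 2 * (3 * x * S / T) := by ring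
  linarith [norm_le_norm_add_norm_sub' (VI σ₂ fun s => Kr x s * F s)
      (VT σ₂ (0 - T) (0 + T) fun s => Kr x s * G s),
    norm_le_norm_add_norm_sub' (VT σ₂ (0 - T) (0 + T) fun s => Kr x s * G s)
      (VT σ₁ (0 - T) (0 + T) fun s => Kr x s * G s)]

theorem riesz {C₀ : ℝ} (hC : 1 ≤ C₀) : ∃ μ C : ℝ, 0 < μ ∧ 0 < C ∧
    ∀ (f : O → ℂ) (Λ x : ℝ) (L₁ L₂ : ℂ → ℂ), Mf f → 1 ≤ Λ → Dat C₀ Λ L₁ L₂ →
      (∀ s ∈ U, 1 < s.re → L₁ s = DS f s) → 2 ≤ x →
      ‖Rz f x‖ ≤ C * x * (Λ ^ 9 + Real.log x) * (Real.exp (-Λ) + x ^ (-(μ / Λ ^ 9))) := by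
  obtain ⟨μ, C, hμ, hμ1, hC', hz⟩ := zero_free hC
  refine ⟨μ / 2, 12 * (2 * C + 990), by positivity, by positivity,
    fun f Λ x L₁ L₂ hf hΛ D hL hx => ?_⟩
  replace hz := hz Λ L₁ L₂ hΛ D
  have hΛ9 : 1 ≤ Λ ^ 9 := one_le_pow₀ hΛ
  set η := μ / Λ ^ 9 with hη
  have hη0 : 0 < η := by positivity
  have hη1 : η ≤ 1 / 8 := (div_le_self hμ.le hΛ9).trans hμ1
  have hx0 : 0 < x := by linarith
  have hl : 2 / 3 ≤ Real.log x :=
    le_trans (by linarith [Real.log_two_gt_d9]) (Real.log_le_log two_pos hx)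
  have hl1 : 0 < 1 / Real.log x := by positivity
  have hl2 : 1 / Real.log x ≤ 3 / 2 := by
    rw [div_le_iff₀ (by linarith)]
    linarith
  have hE := Real.add_one_le_exp Λ
  set W : Set ℂ := {s | (1 - η < s.re ∧ s.re < 3) ∧ -Real.exp Λ < s.im ∧ s.im < Real.exp Λ} with hW
  have hWc : Convex ℝ W := ((convex_halfSpace_re_gt _).inter (convex_halfSpace_re_lt _)).inter
    ((convex_halfSpace_im_gt _).inter (convex_halfSpace_im_lt _))
  have hWo : IsOpen W := ((isOpen_lt continuous_const continuous_re).inter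
    (isOpen_lt continuous_re continuous_const)).inter ((isOpen_lt continuous_const continuous_im).inter
    (isOpen_lt continuous_im continuous_const))
  have hWU : W ⊆ U := fun s hs => ⟨by linarith [hs.1.1], by linarith [hs.1.2]⟩
  have hzW := fun s (hs : s ∈ W) => hz s hs.1.1.le hs.1.2.le (abs_le.2 ⟨hs.2.1.le, hs.2.2.le⟩)
  obtain ⟨G, g1, g2, g3⟩ := exists_log_ext (V := W ∩ {s | 1 < s.re}) (F := L₁)
    (g := fun s => PD f s + RD f s) hWo hWc inter_subset_left
    (hWc.inter (convex_halfSpace_re_gt 1)).isPreconnected (D.d₁.mono hWU) (fun s hs => (hzW s hs).1)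
    ((hf.diff_PD.mono inter_subset_right).add
      (hf.diff_RD.mono fun s hs => (hWU hs.1).1)).continuousOn
    fun s hs => by rw [hf.exp_eq hs.2, hL s (hWU hs.1) hs.2]
  have g4 : ∀ s ∈ W, ‖deriv G s‖ ≤ C * Λ ^ 9 := fun s hs => by
    have hn := hWo.mem_nhds hs
    have e1 : deriv L₁ s = cexp (G s) * deriv G s := by
      rw [← (g1.differentiableAt hn).hasDerivAt.cexp.deriv]
      exact (Filter.EventuallyEq.deriv_eq (Filter.eventually_of_mem hn g2)).symm
    have k := (hzW s hs).2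
    rwa [e1, g2 s hs, mul_div_cancel_left₀ _ (hzW s hs).1] at k
  have g5 : ∀ s ∈ W, ‖G s - RD f s‖ ≤ (2 * C + 990) * Λ ^ 9 := fun s hs => by
    have m : (2 + s.im * I : ℂ) ∈ W := by
      simp only [hW, mem_ofPred_eq, add_re, re_ofNat, mul_re, ofReal_re, I_re, mul_zero, ofReal_im,
        I_im, mul_one, sub_self, add_zero, add_im, im_ofNat, mul_im, zero_add]
      exact ⟨⟨by linarith, by norm_num⟩, hs.2⟩
    have u1 := hWc.norm_image_sub_le_of_norm_deriv_le
      (fun w hw => g1.differentiableAt (hWo.mem_nhds hw)) g4 m hs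
    have u2 : ‖s - (2 + s.im * I)‖ ≤ 2 := by
      have : s - (2 + s.im * I) = ((s.re - 2 : ℝ) : ℂ) := by apply Complex.ext <;> simp
      rw [this, norm_real, Real.norm_eq_abs]
      exact abs_le.2 ⟨by linarith [hs.1.1], by linarith [hs.1.2]⟩
    have u3 := hf.norm_PD_le (s := 2 + s.im * I) (by simp) (by simp; norm_num)
    have u4 := hf.norm_RD_le (s := 2 + s.im * I) (by simp; norm_num)
    have u5 := hf.norm_RD_le (s := s) (hWU hs).1.le
    have u6 := g3 _ ⟨m, by simp⟩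
    have u7 : (110 : ℝ) / ((2 + s.im * I : ℂ).re - 1) = 110 := by simp; norm_num
    have u8 := mul_le_mul_of_nonneg_left u2 (by positivity : 0 ≤ C * Λ ^ 9)
    have u9 := norm_le_norm_add_norm_sub' (G s) (G (2 + s.im * I))
    rw [u6] at u9 u1
    linarith [norm_sub_le (G s) (RD f s), norm_add_le (PD f (2 + s.im * I)) (RD f (2 + s.im * I))]
  have hR : rect (1 - η / 2) (1 + 1 / Real.log x) 0 (Real.exp Λ / 2) ⊆ W := fun s hs => by
    have := abs_le.1 hs.2.2
    exact ⟨⟨by linarith [hs.1], by linarith [hs.2.1]⟩, by linarith [this.1], by linarith [this.2]⟩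
  obtain ⟨i1, i2⟩ := hf.Rz_eq hx0 (σ := 1 + 1 / Real.log x) (by linarith)
  have k := contour (G := fun s => G s - RD f s) (S₂ := 110 * Real.log x) hx (by linarith)
    (by linarith) (by linarith)
    ((g1.mono hR).sub (hf.diff_RD.mono fun s hs => (hWU (hR hs)).1)) (fun s hs => g5 s (hR hs))
    (fun s h1 h2 => by
      rw [g3 s ⟨hR ⟨by linarith, h1.le, by rwa [sub_zero]⟩, show 1 < s.re by linarith⟩,
        add_sub_cancel_right])
    (fun s h1 => (hf.norm_PD_le (by linarith) (by linarith)).trans (le_of_eq (by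
      rw [h1, add_sub_cancel_left, div_div_eq_mul_div, div_one]))) i1
  rw [i2]
  refine k.trans ?_
  have e1 : x ^ (1 - η / 2) = x * x ^ (-(μ / 2 / Λ ^ 9)) := by
    rw [sub_eq_add_neg, Real.rpow_add hx0, Real.rpow_one, hη, div_right_comm]
  rw [e1, Real.exp_neg]
  have p1 : 0 < (Real.exp Λ)⁻¹ := by positivity
  have p2 : 0 < x ^ (-(μ / 2 / Λ ^ 9)) := by positivity
  have e2 : 3 * x * (110 * Real.log x) / (Real.exp Λ / 2) =
      660 * (x * Real.log x * (Real.exp Λ)⁻¹) := by field_simp; norm_num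
  have e3 : 6 * x * ((2 * C + 990) * Λ ^ 9) / (Real.exp Λ / 2) =
      12 * (2 * C + 990) * (x * Λ ^ 9 * (Real.exp Λ)⁻¹) := by field_simp; norm_num
  rw [e2, e3]
  have q1 : 0 < x * Real.log x * (Real.exp Λ)⁻¹ := by positivity
  have q2 : 0 < x * Real.log x * x ^ (-(μ / 2 / Λ ^ 9)) := by positivity
  have q3 : 0 < x * Λ ^ 9 * x ^ (-(μ / 2 / Λ ^ 9)) := by positivity
  nlinarith [mul_pos hC' q1, mul_pos hC' q2, mul_pos hC' q3]

end Crest.Agent.R12.SW
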